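import Vale.Agent.P181.H73.Pass

set_option autoImplicit false
set_option linter.unusedSectionVars false

/-!
# The exchange lemma (helper907's step (3))

An alternating `a`-linear form on forms of degree `j = a - 2` with
`φ(v_0, w v_1, …, w v_(a-1)) = 0` satisfies `φ(u^j, u v, rest) = 0`.
-/

namespace Vale.Agent.P181.H270

open Vale.Agent.P181 Vale.Agent.P181.H280 Vale.Agent.P181.H73 Finset

variable {A : Type*} [CommRing A] [Algebra ℂ A]

section Exch

variable {N : ℕ} (φ : MultilinearMap ℂ (fun _ : Fin (N + 2) => A) ℂ) (X w u : A) (v : Fin N → A)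

open Classical in
/-- The value with the letters `w` on `K` and `u` off `K`. -/
noncomputable def T (y : A) (K : Finset (Fin N)) : ℂ :=
  φ (Fin.cons y (Fin.cons X (fun i => (if i ∈ K then w else u) * v i)))

lemma T_add (y y' : A) (K : Finset (Fin N)) :
    T φ X w u v (y + y') K = T φ X w u v y K + T φ X w u v y' K := by
  rw [T, T, T]
  exact MultilinearMap.cons_add φ _ y y'

lemma T_smul (t : ℂ) (y : A) (K : Finset (Fin N)) :
    T φ X w u v (t • y) K = t * T φ X w u v y K := by
  rw [T, T]
  exact MultilinearMap.cons_smul φ _ t y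

lemma expand (y : A) (t : ℂ) :
    φ (Fin.cons y (Fin.cons X (fun i => (w + t • u) * v i))) =
      ∑ K : Finset (Fin N), t ^ (Kᶜ).card * T φ X w u v y K := by
  classical
  let Ψ : MultilinearMap ℂ (fun _ : Fin N => A) ℂ := (φ.curryLeft y).curryLeft X
  have hΨ : ∀ z : Fin N → A, Ψ z = φ (Fin.cons y (Fin.cons X z)) := fun z => rfl
  rw [← hΨ]
  have h1 : (fun i => (w + t • u) * v i) = (fun i => w * v i) + t • (fun i => u * v i) := by
    funext i
    rw [Pi.add_apply, Pi.smul_apply, add_mul, smul_mul_assoc]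
  rw [h1, MultilinearMap.map_add_univ]
  apply Finset.sum_congr rfl
  intro s _
  set x' : Fin N → A := fun i => w * v i with hx'
  set y' : Fin N → A := fun i => u * v i with hy'
  have h2 : s.piecewise x' (t • y') = sᶜ.piecewise (fun i => t • (s.piecewise x' y') i)
      (s.piecewise x' y') := by
    funext i
    by_cases hi : i ∈ s
    · simp [Finset.piecewise, hi]
    · simp [Finset.piecewise, hi]
  rw [h2, MultilinearMap.map_piecewise_smul, Finset.prod_const, smul_eq_mul, hΨ, T]
  congr 4
  funext i
  by_cases hi : i ∈ s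
  · rw [Finset.piecewise_eq_of_mem _ _ _ hi, if_pos hi]
  · rw [Finset.piecewise_eq_of_notMem _ _ _ hi, if_neg hi]

/-- The sum over the sets with `m` letters `u`. -/
noncomputable def E (y : A) (m : ℕ) : ℂ :=
  ∑ K : Finset (Fin N), if m = (Kᶜ).card then T φ X w u v y K else 0

/-- One step of the exchange. -/
lemma E_step (y0 : A)
    (h : ∀ t : ℂ, φ (Fin.cons ((w + t • u) * y0) (Fin.cons X (fun i => (w + t • u) * v i))) = 0)
    (m : ℕ) : E φ X w u v (w * y0) (m + 1) + E φ X w u v (u * y0) m = 0 := by
  classical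
  let p : Polynomial ℂ := ∑ K : Finset (Fin N),
    (Polynomial.C (T φ X w u v (w * y0) K) * Polynomial.X ^ (Kᶜ).card +
      Polynomial.C (T φ X w u v (u * y0) K) * Polynomial.X ^ ((Kᶜ).card + 1))
  have hp : p = 0 := by
    apply Polynomial.funext
    intro t
    rw [Polynomial.eval_zero, ← h t, expand]
    simp only [p, Polynomial.eval_finsetSum, Polynomial.eval_add, Polynomial.eval_mul,
      Polynomial.eval_C, Polynomial.eval_pow, Polynomial.eval_X]
    apply Finset.sum_congr rfl
    intro K _
    rw [add_mul, smul_mul_assoc, T_add, T_smul, pow_succ]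
    ring
  have h2 := congrArg (fun q => q.coeff (m + 1)) hp
  simp only [p, Polynomial.finsetSum_coeff, Polynomial.coeff_add, Polynomial.coeff_C_mul,
    Polynomial.coeff_X_pow, Polynomial.coeff_zero, mul_ite, mul_one, mul_zero,
    add_left_inj] at h2
  rw [Finset.sum_add_distrib] at h2
  exact h2

lemma E_zero (y : A) : E φ X w u v y 0 =
    φ (Fin.cons y (Fin.cons X (fun i => w * v i))) := by
  classical
  rw [E, Finset.sum_eq_single (Finset.univ : Finset (Fin N))]
  · rw [Finset.compl_univ, Finset.card_empty, if_pos rfl, T]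
    have h1 : (fun i : Fin N => (if i ∈ (Finset.univ : Finset (Fin N)) then w else u) * v i) =
        fun i => w * v i := by
      funext i
      rw [if_pos (Finset.mem_univ i)]
    rw [h1]
  · intro K _ hK
    rw [if_neg]
    intro h
    apply hK
    rw [eq_comm, Finset.card_eq_zero, Finset.compl_eq_empty_iff] at h
    exact h
  · intro h
    exact absurd (Finset.mem_univ _) h

lemma E_top (y : A) : E φ X w u v y N =
    φ (Fin.cons y (Fin.cons X (fun i => u * v i))) := by
  classical
  rw [E, Finset.sum_eq_single (∅ : Finset (Fin N))]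
  · rw [Finset.compl_empty, Finset.card_univ, Fintype.card_fin, if_pos rfl, T]
    have h1 : (fun i : Fin N => (if i ∈ (∅ : Finset (Fin N)) then w else u) * v i) =
        fun i => u * v i := by
      funext i
      rw [if_neg (Finset.notMem_empty i)]
    rw [h1]
  · intro K _ hK
    rw [if_neg]
    intro h
    apply hK
    have h1 : (Kᶜ).card = Fintype.card (Fin N) := by rw [← h, Fintype.card_fin]
    rw [Finset.card_eq_iff_eq_univ, Finset.compl_eq_univ_iff] at h1
    exact h1
  · intro h
    exact absurd (Finset.mem_univ _) h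

end Exch

/-- The exchange. -/
lemma exchange (L : Submodule ℂ A) {c : ℕ} (φ : MultilinearMap ℂ (fun _ : Fin (c + 3) => A) ℂ)
    (X : A)
    (h : ∀ w ∈ L, ∀ y ∈ L ^ c, ∀ z : Fin (c + 1) → A, (∀ i, z i ∈ L ^ c) →
      φ (Fin.cons (w * y) (Fin.cons X (fun i => w * z i))) = 0)
    (w u : A) (hw : w ∈ L) (hu : u ∈ L) (z : Fin (c + 1) → A) (hz : ∀ i, z i ∈ L ^ c)
    (h0 : φ (Fin.cons (w ^ (c + 1)) (Fin.cons X (fun i => u * z i))) = 0) :
    φ (Fin.cons (u ^ (c + 1)) (Fin.cons X (fun i => w * z i))) = 0 := by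
  have main : ∀ β α : ℕ, α + β = c + 1 → E φ X w u z (w ^ α * u ^ β) α = 0 := by
    intro β
    induction β with
    | zero =>
      intro α hα
      rw [add_zero] at hα
      subst hα
      rw [pow_zero, mul_one, E_top]
      exact h0
    | succ β ih =>
      intro α hα
      have h1 := ih (α + 1) (by omega)
      have hy0 : w ^ α * u ^ β ∈ L ^ c := by
        have h2 : L ^ c = L ^ α * L ^ β := by
          rw [← pow_add]
          congr 1
          omega
        rw [h2]
        exact Submodule.mul_mem_mul (Submodule.pow_mem_pow _ hw _) (Submodule.pow_mem_pow _ hu _)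
      have h3 := E_step φ X w u z (w ^ α * u ^ β)
        (fun t => h (w + t • u) (L.add_mem hw (L.smul_mem t hu)) _ hy0 z hz) α
      have h4 : w * (w ^ α * u ^ β) = w ^ (α + 1) * u ^ β := by ring
      have h5 : u * (w ^ α * u ^ β) = w ^ α * u ^ (β + 1) := by ring
      rw [h4, h5, h1, zero_add] at h3
      exact h3
  have h1 := main (c + 1) 0 (by omega)
  rw [pow_zero, one_mul, E_zero] at h1
  exact h1

/-- **Step (3).** -/
theorem cstmt (L : Submodule ℂ A) {c : ℕ} (φ : MultilinearMap ℂ (fun _ : Fin (c + 3) => A) ℂ)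
    (hs : IsSgn 3 φ)
    (hQ : ∀ w ∈ L, ∀ v : Fin (c + 3) → A, v 0 ∈ L ^ (c + 1) → (∀ p, p ≠ 0 → v p ∈ L ^ c) →
      φ (fun p => if p = 0 then v 0 else w * v p) = 0) : Col L c φ := by
  classical
  have hsgn : ∀ (σ : Equiv.Perm (Fin (c + 3))) (P : Fin (c + 3) → A),
      φ (fun i => P (σ i)) = 0 → φ P = 0 := by
    intro σ P h
    rw [hs σ P] at h
    refine (mul_eq_zero.1 h).resolve_left ?_
    apply pow_ne_zero
    rcases Int.units_eq_one_or (Equiv.Perm.sign σ) with h1 | h1 <;> rw [h1] <;> simp
  -- free slot `0`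
  have hQ0 : ∀ w ∈ L, ∀ y ∈ L ^ (c + 1), ∀ z : Fin (c + 2) → A, (∀ i, z i ∈ L ^ c) →
      φ (Fin.cons y (fun i => w * z i)) = 0 := by
    intro w hw y hy z hz
    rw [← hQ w hw (Fin.cons y z) hy (by
      intro p hp
      obtain ⟨i, rfl⟩ := Fin.exists_succ_eq.2 hp
      exact hz i)]
    congr 1
    funext p
    refine Fin.cases ?_ (fun i => ?_) p
    · rw [if_pos rfl]
      rfl
    · rw [if_neg (Fin.succ_ne_zero i)]
      rfl
  -- free slot `1`
  have hQ1 : ∀ X ∈ L ^ (c + 1), ∀ w ∈ L, ∀ y ∈ L ^ c, ∀ z : Fin (c + 1) → A,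
      (∀ i, z i ∈ L ^ c) → φ (Fin.cons (w * y) (Fin.cons X (fun i => w * z i))) = 0 := by
    intro X hX w hw y hy z hz
    apply hsgn (Equiv.swap 0 1)
    rw [← hQ0 w hw X hX (Fin.cons y z) (by
      intro i
      refine Fin.cases ?_ (fun i => ?_) i
      · exact hy
      · exact hz i)]
    congr 1
    funext p
    refine Fin.cases ?_ (fun i => ?_) p
    · rw [Equiv.swap_apply_left]
      rfl
    · refine Fin.cases ?_ (fun i => ?_) i
      · have h1 : (Fin.succ 0 : Fin (c + 3)) = 1 := rfl
        rw [h1, Equiv.swap_apply_right]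
        rfl
      · rw [Equiv.swap_apply_of_ne_of_ne (Fin.succ_ne_zero _)]
        · rfl
        · intro h1
          have h2 : i.succ = 0 := Fin.succ_injective _ h1
          exact Fin.succ_ne_zero _ h2
  -- the core
  have core : ∀ u ∈ L, ∀ v ∈ L ^ c, ∀ z : Fin (c + 1) → A, (∀ i, z i ∈ L ^ (c + 1)) →
      φ (Fin.cons (u ^ (c + 1)) (Fin.cons (u * v) z)) = 0 := by
    intro u hu v hv
    have hX : u * v ∈ L ^ (c + 1) := by
      rw [pow_succ']
      exact Submodule.mul_mem_mul hu hv
    have h1 := claimA L ((φ.curryLeft (u ^ (c + 1))).curryLeft (u * v)) (fun _ => c + 1)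
      (fun _ => 1) (by
        intro j
        rw [Finset.sum_const, smul_eq_mul, mul_one, Fin.card_Iic]
        have := j.2
        omega) (by
        intro ξ hξ P hP
        show φ (Fin.cons (u ^ (c + 1)) (Fin.cons (u * v) (fun i => ξ ^ 1 * P i))) = 0
        simp only [pow_one]
        apply exchange L φ (u * v) (hQ1 (u * v) hX) ξ u hξ hu P hP
        have h2 := hQ0 u hu (ξ ^ (c + 1)) (Submodule.pow_mem_pow _ hξ _) (Fin.cons v P) (by
          intro i
          refine Fin.cases ?_ (fun i => ?_) i
          · exact hv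
          · exact hP i)
        rw [← h2]
        congr 2
        funext i
        refine Fin.cases ?_ (fun i => ?_) i
        · rfl
        · rfl)
    intro z hz
    exact h1 z hz
  intro p q hpq u hu v hv P hP
  let σ : Equiv.Perm (Fin (c + 3)) :=
    Equiv.swap 0 p * Equiv.swap 1 (Equiv.swap 0 p q)
  have hσ0 : σ 0 = p := by
    show Equiv.swap 0 p (Equiv.swap 1 (Equiv.swap 0 p q) 0) = p
    rw [Equiv.swap_apply_of_ne_of_ne Fin.zero_ne_one, Equiv.swap_apply_left]
    intro h
    apply hpq
    have h1 := congrArg (Equiv.swap 0 p) h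
    rw [Equiv.swap_apply_self, Equiv.swap_apply_left] at h1
    exact h1
  have hσ1 : σ 1 = q := by
    show Equiv.swap 0 p (Equiv.swap 1 (Equiv.swap 0 p q) 1) = q
    rw [Equiv.swap_apply_left, Equiv.swap_apply_self]
  set P' := Function.update (Function.update P p (u ^ (c + 1))) q (u * v) with hP'
  have hP'mem : ∀ i, P' i ∈ L ^ (c + 1) := by
    intro i
    by_cases hi : i = q
    · rw [hP', hi, Function.update_self, pow_succ']
      exact Submodule.mul_mem_mul hu hv
    · rw [hP', Function.update_of_ne hi]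
      by_cases hi' : i = p
      · rw [hi', Function.update_self]
        exact Submodule.pow_mem_pow _ hu _
      · rw [Function.update_of_ne hi']
        exact hP i
  apply hsgn σ
  have h1 : (fun i => P' (σ i)) =
      Fin.cons (u ^ (c + 1)) (Fin.cons (u * v) (fun i : Fin (c + 1) => P' (σ i.succ.succ))) := by
    funext i
    refine Fin.cases ?_ (fun i => ?_) i
    · rw [hσ0, hP', Function.update_of_ne hpq, Function.update_self]
      rfl
    · refine Fin.cases ?_ (fun i => ?_) i
      · have h2 : (Fin.succ 0 : Fin (c + 3)) = 1 := rfl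
        rw [h2, hσ1, hP', Function.update_self]
        rfl
      · rfl
  rw [h1]
  exact core u hu v hv _ (fun i => hP'mem _)

end Vale.Agent.P181.H270
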