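import Vale.Agent.P181.H270.Exch

set_option autoImplicit false
set_option linter.unusedSectionVars false

/-!
# The exchange lemma with one more free slot, any parity
-/

namespace Vale.Agent.P181.H270

open Vale.Agent.P181 Vale.Agent.P181.H280 Vale.Agent.P181.H73 Finset

variable {A : Type*} [CommRing A] [Algebra ℂ A]

/-- Step (3) for forms whose zeros are permutation invariant. -/
theorem cstmtZ (L : Submodule ℂ A) {c : ℕ} (φ : MultilinearMap ℂ (fun _ : Fin (c + 3) => A) ℂ)
    (hsgn : ∀ (σ : Equiv.Perm (Fin (c + 3))) (P : Fin (c + 3) → A),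
      φ (fun i => P (σ i)) = 0 → φ P = 0)
    (hQ : ∀ w ∈ L, ∀ v : Fin (c + 3) → A, v 0 ∈ L ^ (c + 1) → (∀ p, p ≠ 0 → v p ∈ L ^ c) →
      φ (fun p => if p = 0 then v 0 else w * v p) = 0) : Col L c φ := by
  classical
  -- free slot `0`
  have hQ0 : ∀ w ∈ L, ∀ y ∈ L ^ (c + 1), ∀ z : Fin (c + 2) → A, (∀ i, z i ∈ L ^ c) →
      φ (Fin.cons y (fun i => w * z i)) = 0 := by
    intro w hw y hy z hz
    rw [← hQ w hw (Fin.cons y z) hy (by
      intro p hp
      obtain ⟨i, rfl⟩ := Fin.exists_succ_eq.2 hp
      exact hz i)]
    congr 1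
    funext p
    refine Fin.cases ?_ (fun i => ?_) p
    · rw [if_pos rfl]
      rfl
    · rw [if_neg (Fin.succ_ne_zero i)]
      rfl
  -- free slot `1`
  have hQ1 : ∀ X ∈ L ^ (c + 1), ∀ w ∈ L, ∀ y ∈ L ^ c, ∀ z : Fin (c + 1) → A,
      (∀ i, z i ∈ L ^ c) → φ (Fin.cons (w * y) (Fin.cons X (fun i => w * z i))) = 0 := by
    intro X hX w hw y hy z hz
    apply hsgn (Equiv.swap 0 1)
    rw [← hQ0 w hw X hX (Fin.cons y z) (by
      intro i
      refine Fin.cases ?_ (fun i => ?_) i
      · exact hy
      · exact hz i)]
    congr 1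
    funext p
    refine Fin.cases ?_ (fun i => ?_) p
    · rw [Equiv.swap_apply_left]
      rfl
    · refine Fin.cases ?_ (fun i => ?_) i
      · have h1 : (Fin.succ 0 : Fin (c + 3)) = 1 := rfl
        rw [h1, Equiv.swap_apply_right]
        rfl
      · rw [Equiv.swap_apply_of_ne_of_ne (Fin.succ_ne_zero _)]
        · rfl
        · intro h1
          have h2 : i.succ = 0 := Fin.succ_injective _ h1
          exact Fin.succ_ne_zero _ h2
  -- the core
  have core : ∀ u ∈ L, ∀ v ∈ L ^ c, ∀ z : Fin (c + 1) → A, (∀ i, z i ∈ L ^ (c + 1)) →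
      φ (Fin.cons (u ^ (c + 1)) (Fin.cons (u * v) z)) = 0 := by
    intro u hu v hv
    have hX : u * v ∈ L ^ (c + 1) := by
      rw [pow_succ']
      exact Submodule.mul_mem_mul hu hv
    have h1 := claimA L ((φ.curryLeft (u ^ (c + 1))).curryLeft (u * v)) (fun _ => c + 1)
      (fun _ => 1) (by
        intro j
        rw [Finset.sum_const, smul_eq_mul, mul_one, Fin.card_Iic]
        have := j.2
        omega) (by
        intro ξ hξ P hP
        show φ (Fin.cons (u ^ (c + 1)) (Fin.cons (u * v) (fun i => ξ ^ 1 * P i))) = 0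
        simp only [pow_one]
        apply exchange L φ (u * v) (hQ1 (u * v) hX) ξ u hξ hu P hP
        have h2 := hQ0 u hu (ξ ^ (c + 1)) (Submodule.pow_mem_pow _ hξ _) (Fin.cons v P) (by
          intro i
          refine Fin.cases ?_ (fun i => ?_) i
          · exact hv
          · exact hP i)
        rw [← h2]
        congr 2
        funext i
        refine Fin.cases ?_ (fun i => ?_) i
        · rfl
        · rfl)
    intro z hz
    exact h1 z hz
  intro p q hpq u hu v hv P hP
  let σ : Equiv.Perm (Fin (c + 3)) :=
    Equiv.swap 0 p * Equiv.swap 1 (Equiv.swap 0 p q)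
  have hσ0 : σ 0 = p := by
    show Equiv.swap 0 p (Equiv.swap 1 (Equiv.swap 0 p q) 0) = p
    rw [Equiv.swap_apply_of_ne_of_ne Fin.zero_ne_one, Equiv.swap_apply_left]
    intro h
    apply hpq
    have h1 := congrArg (Equiv.swap 0 p) h
    rw [Equiv.swap_apply_self, Equiv.swap_apply_left] at h1
    exact h1
  have hσ1 : σ 1 = q := by
    show Equiv.swap 0 p (Equiv.swap 1 (Equiv.swap 0 p q) 1) = q
    rw [Equiv.swap_apply_left, Equiv.swap_apply_self]
  set P' := Function.update (Function.update P p (u ^ (c + 1))) q (u * v) with hP'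
  have hP'mem : ∀ i, P' i ∈ L ^ (c + 1) := by
    intro i
    by_cases hi : i = q
    · rw [hP', hi, Function.update_self, pow_succ']
      exact Submodule.mul_mem_mul hu hv
    · rw [hP', Function.update_of_ne hi]
      by_cases hi' : i = p
      · rw [hi', Function.update_self]
        exact Submodule.pow_mem_pow _ hu _
      · rw [Function.update_of_ne hi']
        exact hP i
  apply hsgn σ
  have h1 : (fun i => P' (σ i)) =
      Fin.cons (u ^ (c + 1)) (Fin.cons (u * v) (fun i : Fin (c + 1) => P' (σ i.succ.succ))) := by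
    funext i
    refine Fin.cases ?_ (fun i => ?_) i
    · rw [hσ0, hP', Function.update_of_ne hpq, Function.update_self]
      rfl
    · refine Fin.cases ?_ (fun i => ?_) i
      · have h2 : (Fin.succ 0 : Fin (c + 3)) = 1 := rfl
        rw [h2, hσ1, hP', Function.update_self]
        rfl
      · rfl
  rw [h1]
  exact core u hu v hv _ (fun i => hP'mem _)

/-- **Exchange with two free slots** (`a = c + 4`, degree `c + 1 = a - 3`). -/
theorem col4 (L : Submodule ℂ A) {c κ : ℕ} (φ : MultilinearMap ℂ (fun _ : Fin (c + 4) => A) ℂ)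
    (hs : IsSgn κ φ)
    (hQ : ∀ w ∈ L, ∀ v : Fin (c + 4) → A,
      (∀ p : Fin (c + 4), (p : ℕ) < 2 → v p ∈ L ^ (c + 1)) →
      (∀ p : Fin (c + 4), 2 ≤ (p : ℕ) → v p ∈ L ^ c) →
      φ (fun p => if (p : ℕ) < 2 then v p else w * v p) = 0) : Col L c φ := by
  classical
  have hsgn : ∀ (σ : Equiv.Perm (Fin (c + 4))) (P : Fin (c + 4) → A),
      φ (fun i => P (σ i)) = 0 → φ P = 0 := by
    intro σ P h
    rw [hs σ P] at h
    refine (mul_eq_zero.1 h).resolve_left ?_
    apply pow_ne_zero
    rcases Int.units_eq_one_or (Equiv.Perm.sign σ) with h1 | h1 <;> rw [h1] <;> simp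
  -- the curried forms
  have hcur : ∀ X ∈ L ^ (c + 1), Col L c (φ.curryLeft X) := by
    intro X hX
    apply cstmtZ L (φ.curryLeft X)
    · intro σ P h
      show φ (Fin.cons X P) = 0
      have h' : φ (Fin.cons X (fun i => P (σ i))) = 0 := h
      apply hsgn (Equiv.Perm.decomposeFin.symm (0, σ))
      rw [← h']
      congr 1
      funext i
      refine Fin.cases ?_ (fun i => ?_) i
      · rw [Equiv.Perm.decomposeFin_symm_apply_zero]
        rfl
      · rw [Equiv.Perm.decomposeFin_symm_apply_succ, Equiv.swap_self]
        rfl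
    · intro w hw v hv0 hv
      show φ (Fin.cons X (fun p => if p = 0 then v 0 else w * v p)) = 0
      rw [← hQ w hw (Fin.cons X v) (by
        intro p
        refine Fin.cases ?_ (fun i => ?_) p
        · intro _
          exact hX
        · intro hi
          have hi0 : i = 0 := by
            apply Fin.ext
            rw [Fin.val_succ] at hi
            rw [Fin.val_zero]
            omega
          rw [hi0]
          exact hv0) (by
        intro p
        refine Fin.cases ?_ (fun i => ?_) p
        · intro h2
          rw [Fin.val_zero] at h2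
          omega
        · intro hi
          refine hv i ?_
          intro hi0
          rw [hi0, Fin.val_succ, Fin.val_zero] at hi
          omega)]
      congr 1
      funext p
      refine Fin.cases ?_ (fun i => ?_) p
      · rw [if_pos (by rw [Fin.val_zero]; omega)]
        rfl
      · rw [Fin.cons_succ, Fin.cons_succ]
        by_cases hi : i = 0
        · rw [if_pos hi, hi, if_pos (by rw [Fin.val_succ, Fin.val_zero]; omega)]
        · rw [if_neg hi, if_neg]
          intro h2
          apply hi
          apply Fin.ext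
          rw [Fin.val_succ] at h2
          rw [Fin.val_zero]
          omega
  intro p q hpq u hu v hv P hP
  -- a third slot
  obtain ⟨r, hr⟩ : ∃ r : Fin (c + 4), r ∉ ({p, q} : Finset (Fin (c + 4))) := by
    by_contra hcon
    push Not at hcon
    have h1 : (Finset.univ : Finset (Fin (c + 4))).card ≤ ({p, q} : Finset (Fin (c + 4))).card :=
      Finset.card_le_card (fun x _ => hcon x)
    rw [Finset.card_univ, Fintype.card_fin] at h1
    have h2 : ({p, q} : Finset (Fin (c + 4))).card ≤ 2 := Finset.card_le_two
    omega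
  rw [Finset.mem_insert, Finset.mem_singleton, not_or] at hr
  obtain ⟨hrp, hrq⟩ := hr
  set σ : Equiv.Perm (Fin (c + 4)) := Equiv.swap 0 r with hσ
  have hσ0 : σ 0 = r := Equiv.swap_apply_left _ _
  have hσσ : ∀ i, σ (σ i) = i := fun i => Equiv.swap_apply_self _ _ _
  have hp0 : σ p ≠ 0 := by
    intro h
    apply hrp
    rw [← hσ0, ← h, hσσ]
  have hq0 : σ q ≠ 0 := by
    intro h
    apply hrq
    rw [← hσ0, ← h, hσσ]
  obtain ⟨p', hp'⟩ := Fin.exists_succ_eq.2 hp0
  obtain ⟨q', hq'⟩ := Fin.exists_succ_eq.2 hq0
  have hp'σ : σ p'.succ = p := by rw [hp', hσσ]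
  have hq'σ : σ q'.succ = q := by rw [hq', hσσ]
  have hpq' : p' ≠ q' := by
    rintro rfl
    exact hpq (hp'σ.symm.trans hq'σ)
  set P' := Function.update (Function.update P p (u ^ (c + 1))) q (u * v) with hP'
  apply hsgn σ
  have h1 := hcur (P r) (hP r) p' q' hpq' u hu v hv (fun i => P (σ i.succ)) (fun i => hP _)
  have h2 : (fun i => P' (σ i)) = Fin.cons (P r)
      (Function.update (Function.update (fun i : Fin (c + 3) => P (σ i.succ)) p' (u ^ (c + 1)))
        q' (u * v)) := by
    funext i
    refine Fin.cases ?_ (fun i => ?_) i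
    · rw [hσ0, hP', Function.update_of_ne hrq, Function.update_of_ne hrp]
      rfl
    · rw [Fin.cons_succ]
      by_cases hiq : i = q'
      · rw [hiq, hq'σ, hP', Function.update_self, Function.update_self]
      · have hiq' : σ i.succ ≠ q := by
          intro h
          apply hiq
          apply Fin.succ_injective
          rw [← hσσ i.succ, h, ← hq']
        rw [hP', Function.update_of_ne hiq', Function.update_of_ne hiq]
        by_cases hip : i = p'
        · rw [hip, hp'σ, Function.update_self, Function.update_self]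
        · have hip' : σ i.succ ≠ p := by
            intro h
            apply hip
            apply Fin.succ_injective
            rw [← hσσ i.succ, h, ← hp']
          rw [Function.update_of_ne hip', Function.update_of_ne hip]
  rw [h2]
  exact h1

end Vale.Agent.P181.H270
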