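import Vale.Agent.P181.H270.Perm

set_option autoImplicit false
set_option linter.unusedSectionVars false

/-!
# Placements for all hybrid maps: only the `k` distinguished particles are dissolved
-/

namespace Vale.Agent.P181.H270

open Vale.Agent.P181 Vale.Agent.P181.H280 Finset

variable {A : Type*} [CommRing A] [Algebra ℂ A]

/-- A configuration of `N` columns on the particles `D_κ` (`κ : Fin k`) and `G_i` (`i : Fin a`).
Letter `i` of column `l` sits on `G_i` if `om l i = none` and on `D_κ` if `om l i = some κ`. -/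
structure Cfg (a k N : ℕ) where
  om : Fin N → Fin a → Option (Fin k)
  nG : Fin N → Fin a → Fin a
  nD : Fin N → Fin k → Fin a
  om_inj : ∀ l i i' κ, om l i = some κ → om l i' = some κ → i = i'
  nG_inj : ∀ l l' i, om l i = none → om l' i = none → nG l i = nG l' i → l = l'
  nD_inj : ∀ l l' i i' κ, om l i = some κ → om l' i' = some κ → nD l κ = nD l' κ → l = l'

namespace Cfg

variable {a k N : ℕ} (C : Cfg a k N)

/-- The position of letter `i` of column `l`. -/
def pos (q : ℕ) (l : Fin N) (i : Fin a) : (Fin k ⊕ (Fin a × Fin (q + 1))) × Fin a :=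
  match C.om l i with
  | none => (.inr (i, 0), C.nG l i)
  | some κ => (.inl κ, C.nD l κ)

variable {C} {q : ℕ} {l l' : Fin N} {i i' : Fin a} {κ : Fin k}

lemma pos_none (h : C.om l i = none) : C.pos q l i = (.inr (i, 0), C.nG l i) := by
  simp only [pos, h]

lemma pos_some (h : C.om l i = some κ) : C.pos q l i = (.inl κ, C.nD l κ) := by
  simp only [pos, h]

lemma pos_inj (h : C.pos q l i = C.pos q l' i') : l = l' ∧ i = i' := by
  rcases h1 : C.om l i with _ | κ
  · rcases h2 : C.om l' i' with _ | κ'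
    · rw [pos_none h1, pos_none h2] at h
      have h3 := (Prod.mk.inj (Sum.inr.inj (Prod.mk.inj h).1)).1
      have h4 := (Prod.mk.inj h).2
      subst h3
      exact ⟨C.nG_inj l l' i h1 h2 h4, rfl⟩
    · rw [pos_none h1, pos_some h2] at h
      exact absurd (Prod.mk.inj h).1 Sum.inr_ne_inl
  · rcases h2 : C.om l' i' with _ | κ'
    · rw [pos_some h1, pos_none h2] at h
      exact absurd (Prod.mk.inj h).1 Sum.inl_ne_inr
    · rw [pos_some h1, pos_some h2] at h
      have h3 := Sum.inl.inj (Prod.mk.inj h).1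
      have h4 := (Prod.mk.inj h).2
      subst h3
      have h5 := C.nD_inj l l' i i' κ h1 h2 h4
      subst h5
      exact ⟨rfl, C.om_inj l i i' κ h1 h2⟩

variable (C) in
/-- The staircase condition of the killing lemma. -/
def Stair : Prop := ∀ κ : Fin k, ∃ S : Finset (Fin N), k + 1 ≤ S.card + (κ : ℕ) ∧
  ∀ l ∈ S, ∀ κ' ≤ κ, ∀ i, C.om l i ≠ some κ'

/-- The marked particles. -/
def gp (q : ℕ) : Fin k ⊕ Fin a → Fin k ⊕ (Fin a × Fin (q + 1)) :=
  Sum.map id (fun i => (i, 0))

lemma gp_inj : Function.Injective (gp (a := a) (k := k) q) := by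
  apply Function.Injective.sumMap Function.injective_id
  intro i i' h
  exact (Prod.mk.inj h).1

variable (C) in
/-- Column `l` has a letter on the particle. -/
def Has (l : Fin N) : Fin k ⊕ Fin a → Prop
  | .inl κ => ∃ i, C.om l i = some κ
  | .inr i => C.om l i = none

variable (C) in
/-- Any two marked particles lie in a common column. -/
def Cover : Prop := ∀ X Y : Fin k ⊕ Fin a, X ≠ Y → ∃ l, C.Has l X ∧ C.Has l Y

lemma has_pos {X : Fin k ⊕ Fin a} (h : C.Has l X) : ∃ i n, C.pos q l i = (gp q X, n) := by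
  rcases X with κ | i
  · obtain ⟨i, hi⟩ := h
    exact ⟨i, _, pos_some hi⟩
  · exact ⟨i, _, pos_none h⟩

lemma pos_has (l : Fin N) (i : Fin a) : ∃ X n, C.pos q l i = (gp q X, n) ∧ C.Has l X := by
  rcases h : C.om l i with _ | κ
  · exact ⟨.inr i, _, pos_none h, h⟩
  · exact ⟨.inl κ, _, pos_some h, ⟨i, h⟩⟩

section Surv

variable {e : Equiv.Perm (Fin k ⊕ (Fin a × Fin (q + 1)))} {σ : Fin k → Equiv.Perm (Fin a)}

/-- A particle which is not dissolved lies in one slot. -/
lemma slot_const' {r : Fin k ⊕ (Fin a × Fin (q + 1))} (hr : ∀ t, e (.inl t) ≠ r)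
    (s s' : Fin a) : slot e σ (r, s) = slot e σ (r, s') := by
  rcases h : e.symm r with t | pj
  · exfalso
    apply hr t
    rw [← h, Equiv.apply_symm_apply]
  · have h1 : r = e (.inr pj) := by rw [← h, Equiv.apply_symm_apply]
    rw [h1, slot_e_inr, slot_e_inr]

/-- Two surviving marked particles lie in different slots. -/
lemma surv_inj (hcov : C.Cover ∨ q = 0)
    (h : ∀ l, Function.Bijective (fun i => slot e σ (C.pos q l i))) {X Y : Fin k ⊕ Fin a}
    (hX : ∀ t, e (.inl t) ≠ gp q X) (hY : ∀ t, e (.inl t) ≠ gp q Y) (s s' : Fin a)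
    (hs : slot e σ (gp q X, s) = slot e σ (gp q Y, s')) : X = Y := by
  rcases hcov with hcov | hq
  · by_contra hne
    obtain ⟨l, hlX, hlY⟩ := hcov X Y hne
    obtain ⟨i, n, hi⟩ := has_pos (q := q) hlX
    obtain ⟨i', n', hi'⟩ := has_pos (q := q) hlY
    have h1 : slot e σ (C.pos q l i) = slot e σ (C.pos q l i') := by
      rw [hi, hi', slot_const' hX n s, slot_const' hY n' s', hs]
    have h2 := (h l).1 h1
    rw [h2, hi'] at hi
    exact hne (gp_inj (Prod.mk.inj hi).1.symm)
  · subst hq
    rcases h1 : e.symm (gp 0 X) with t | pj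
    · exfalso
      apply hX t
      rw [← h1, Equiv.apply_symm_apply]
    · rcases h2 : e.symm (gp 0 Y) with t | pj'
      · exfalso
        apply hY t
        rw [← h2, Equiv.apply_symm_apply]
      · have h3 : gp 0 X = e (.inr pj) := by rw [← h1, Equiv.apply_symm_apply]
        have h4 : gp 0 Y = e (.inr pj') := by rw [← h2, Equiv.apply_symm_apply]
        rw [h3, h4, slot_e_inr, slot_e_inr] at hs
        have h5 : pj = pj' := Prod.ext hs (Subsingleton.elim (α := Fin 1) _ _)
        apply gp_inj (q := 0)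
        rw [h3, h4, h5]

/-- All dissolved particles are marked. -/
lemma surv_dis (ha : 0 < a) (hcov : C.Cover ∨ q = 0)
    (h : ∀ l, Function.Bijective (fun i => slot e σ (C.pos q l i))) (t : Fin k) :
    ∃ X : Fin k ⊕ Fin a, e (.inl t) = gp q X := by
  classical
  let D : Finset (Fin k ⊕ Fin a) := univ.filter (fun X => ∃ t, e (.inl t) = gp q X)
  have hDc : (Dᶜ).card ≤ a := by
    have h1 : (Dᶜ).card ≤ (Finset.univ : Finset (Fin a)).card := by
      apply Finset.card_le_card_of_injOn (fun X => slot e σ (gp q X, ⟨0, ha⟩))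
        (fun _ _ => Finset.mem_coe.2 (Finset.mem_univ _))
      intro X hX Y hY hXY
      have hX' : ∀ t, e (.inl t) ≠ gp q X := by
        intro t ht
        exact (Finset.mem_compl.1 hX) (Finset.mem_filter.2 ⟨Finset.mem_univ _, t, ht⟩)
      have hY' : ∀ t, e (.inl t) ≠ gp q Y := by
        intro t ht
        exact (Finset.mem_compl.1 hY) (Finset.mem_filter.2 ⟨Finset.mem_univ _, t, ht⟩)
      exact surv_inj hcov h hX' hY' _ _ hXY
    rwa [Finset.card_univ, Fintype.card_fin] at h1
  have hDk : k ≤ D.card := by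
    have h1 := Finset.card_compl_add_card D
    rw [Fintype.card_sum, Fintype.card_fin, Fintype.card_fin] at h1
    omega
  have h2 : ∀ X : {X // X ∈ D}, ∃ t, e (.inl t) = gp q X.1 := fun X =>
    (Finset.mem_filter.1 X.2).2
  choose f hf using h2
  have hfinj : Function.Injective f := by
    intro X Y hXY
    apply Subtype.ext
    apply gp_inj (q := q)
    rw [← hf X, ← hf Y, hXY]
  have hfsurj : Function.Surjective f := by
    have h3 : Fintype.card {X // X ∈ D} = D.card := Fintype.card_coe D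
    have h4 := Fintype.card_le_of_injective f hfinj
    rw [Fintype.card_fin, h3] at h4
    have h5 : Fintype.card {X // X ∈ D} = Fintype.card (Fin k) := by
      rw [h3, Fintype.card_fin]
      omega
    exact ((Fintype.bijective_iff_injective_and_card f).2 ⟨hfinj, h5⟩).2
  obtain ⟨X, hX⟩ := hfsurj t
  exact ⟨X.1, by rw [← hX, hf]⟩

/-- All `D_κ` are dissolved. -/
lemma surv_D (ha : 0 < a) (hst : C.Stair) (hcov : C.Cover ∨ q = 0)
    (h : ∀ l, Function.Bijective (fun i => slot e σ (C.pos q l i))) :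
    ∀ (n : ℕ) (κ : Fin k), (κ : ℕ) = n → ∃ t, e (.inl t) = .inl κ := by
  classical
  intro n
  induction n using Nat.strong_induction_on with
  | _ n ih =>
  intro κ hκ
  by_contra hcon
  push Not at hcon
  obtain ⟨S, hS1, hS2⟩ := hst κ
  let ps : Fin a := slot e σ (.inl κ, ⟨0, ha⟩)
  have hl : ∀ l : {l // l ∈ S}, ∃ i t n, C.pos q l.1 i = (e (.inl t), n) ∧
      (σ t).symm n = ps ∧ ∀ κ', κ' ≤ κ → e (.inl t) ≠ .inl κ' := by
    intro l
    obtain ⟨i, hi⟩ := (h l.1).2 ps
    obtain ⟨X, n, hXn, hXl⟩ := pos_has (C := C) (q := q) l.1 i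
    have hXκ : ∀ κ', κ' ≤ κ → gp q X ≠ .inl κ' := by
      intro κ' hκ' hX
      rcases X with κ'' | i'
      · have h1 : κ'' = κ' := Sum.inl.inj hX
        obtain ⟨i'', hi''⟩ := hXl
        rw [h1] at hi''
        exact hS2 l.1 l.2 κ' hκ' i'' hi''
      · exact absurd hX Sum.inr_ne_inl
    by_cases hXd : ∃ t, e (.inl t) = gp q X
    · obtain ⟨t, ht⟩ := hXd
      refine ⟨i, t, n, by rw [hXn, ht], ?_, fun κ' hκ' => by rw [ht]; exact hXκ κ' hκ'⟩
      have hi' : slot e σ (C.pos q l.1 i) = ps := hi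
      rw [hXn, ← ht, slot_e_inl] at hi'
      exact hi'
    · exfalso
      push Not at hXd
      have hi' : slot e σ (C.pos q l.1 i) = ps := hi
      rw [hXn] at hi'
      have h2 : X = .inl κ := surv_inj hcov h hXd (fun t => hcon t) n ⟨0, ha⟩ hi'
      rw [h2] at hXκ
      exact hXκ κ le_rfl rfl
  choose i t nn hpos hslot hne using hl
  have htinj : Function.Injective t := by
    intro l l' hll
    have h1 : nn l = nn l' := by
      apply (σ (t l)).symm.injective
      rw [hslot l]
      rw [hll, hslot l']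
    have h2 : C.pos q l.1 (i l) = C.pos q l'.1 (i l') := by
      rw [hpos l, hpos l', hll, h1]
    exact Subtype.ext (pos_inj h2).1
  -- the dissolved particles below `κ`
  have hbelow : ∀ κ' : {κ' : Fin k // κ' < κ}, ∃ t, e (.inl t) = .inl κ'.1 := by
    intro κ'
    exact ih κ'.1 (by rw [← hκ]; exact κ'.2) κ'.1 rfl
  choose g hg using hbelow
  have hginj : Function.Injective g := by
    intro κ1 κ2 h12
    apply Subtype.ext
    apply Sum.inl_injective (β := Fin a × Fin (q + 1))
    rw [← hg κ1, ← hg κ2, h12]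
  have hsum : Function.Injective (Sum.elim t g) := by
    apply Function.Injective.sumElim htinj hginj
    intro l κ' h1
    apply hne l κ'.1 (le_of_lt κ'.2)
    rw [h1, hg]
  have hcard := Fintype.card_le_of_injective _ hsum
  rw [Fintype.card_sum, Fintype.card_coe, Fintype.card_fin] at hcard
  have h3 : Fintype.card {κ' : Fin k // κ' < κ} = (κ : ℕ) := by
    rw [Fintype.card_subtype]
    have h4 : univ.filter (fun κ' : Fin k => κ' < κ) = Finset.Iio κ := by
      ext x
      simp
    rw [h4, Fin.card_Iio]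
  omega

/-- The dissolved particles are the `D_κ`. -/
lemma surv_all (ha : 0 < a) (hst : C.Stair) (hcov : C.Cover ∨ q = 0)
    (h : ∀ l, Function.Bijective (fun i => slot e σ (C.pos q l i))) :
    ∃ (ε : Equiv.Perm (Fin k)) (e' : Equiv.Perm (Fin a × Fin (q + 1))),
      e = Equiv.sumCongr ε e' := by
  have h1 : ∀ κ : Fin k, ∃ t, e (.inl t) = .inl κ := fun κ =>
    surv_D ha hst hcov h κ κ rfl
  choose f hf using h1
  have hfinj : Function.Injective f := by
    intro κ κ' hκ
    apply Sum.inl_injective (β := Fin a × Fin (q + 1))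
    rw [← hf κ, ← hf κ', hκ]
  have hfsurj : Function.Surjective f := Finite.injective_iff_surjective.1 hfinj
  have h2 : Set.MapsTo e (Set.range Sum.inl) (Set.range Sum.inl) := by
    rintro _ ⟨t, rfl⟩
    obtain ⟨κ, rfl⟩ := hfsurj t
    exact ⟨κ, (hf κ).symm⟩
  obtain ⟨⟨ε, e'⟩, h3⟩ := Equiv.Perm.mem_sumCongrHom_range_of_perm_mapsTo_inl h2
  exact ⟨ε, e', h3.symm⟩

end Surv

section GP

/-- The permutation of the letters of column `l` in terms of the distributions `t`. -/
def eta (C : Cfg a k N) (t : Fin k → Equiv.Perm (Fin a)) (l : Fin N) (i : Fin a) : Fin a :=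
  match C.om l i with
  | none => i
  | some κ => t κ (C.nD l κ)

lemma eta_none {t : Fin k → Equiv.Perm (Fin a)} (h : C.om l i = none) : C.eta t l i = i := by
  simp only [eta, h]

lemma eta_some {t : Fin k → Equiv.Perm (Fin a)} (h : C.om l i = some κ) :
    C.eta t l i = t κ (C.nD l κ) := by
  simp only [eta, h]

lemma slot_sum_inl (ε : Equiv.Perm (Fin k)) (e' : Equiv.Perm (Fin a × Fin (q + 1)))
    (σ : Fin k → Equiv.Perm (Fin a)) (κ : Fin k) (n : Fin a) :
    slot (Equiv.sumCongr ε e') σ (.inl κ, n) = (σ (ε.symm κ)).symm n := rfl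

lemma slot_sum_inr (ε : Equiv.Perm (Fin k)) (e' : Equiv.Perm (Fin a × Fin (q + 1)))
    (σ : Fin k → Equiv.Perm (Fin a)) (r : Fin a × Fin (q + 1)) (n : Fin a) :
    slot (Equiv.sumCongr ε e') σ (.inr r, n) = (e'.symm r).1 := rfl

/-- Every slot contains `q` pure particles. -/
lemma pure_card (e' : Equiv.Perm (Fin a × Fin (q + 1))) (π : Equiv.Perm (Fin a))
    (hπ : ∀ i, (e'.symm (i, 0)).1 = π i) (G : A) (p : Fin a) :
    ∏ r : Fin a × Fin q, (if (e'.symm (r.1, r.2.succ)).1 = p then G else 1) = G ^ q := by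
  have h1 : ∑ r : Fin a × Fin (q + 1), (if (e'.symm r).1 = p then 1 else 0) = q + 1 := by
    rw [Equiv.sum_comp e'.symm (fun r : Fin a × Fin (q + 1) => if r.1 = p then 1 else 0),
      Fintype.sum_prod_type, Finset.sum_eq_single p]
    · simp
    · intro p' _ hp'
      apply Finset.sum_eq_zero
      intro j _
      rw [if_neg hp']
    · intro h4
      exact absurd (Finset.mem_univ _) h4
  rw [Fintype.sum_prod_type] at h1
  simp only [Fin.sum_univ_succ (n := q)] at h1
  rw [Finset.sum_add_distrib] at h1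
  have h4 : ∑ i : Fin a, (if (e'.symm (i, (0 : Fin (q + 1)))).1 = p then 1 else 0) = 1 := by
    rw [Finset.sum_eq_single (π.symm p)]
    · rw [if_pos]
      rw [hπ, Equiv.apply_symm_apply]
    · intro i _ hi
      rw [if_neg]
      intro h5
      apply hi
      rw [hπ] at h5
      rw [← h5, Equiv.symm_apply_apply]
    · intro h5
      exact absurd (Finset.mem_univ _) h5
  rw [h4, ← Fintype.sum_prod_type (f := fun r : Fin a × Fin q =>
    (if (e'.symm (r.1, r.2.succ)).1 = p then 1 else 0))] at h1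
  have h6 : ∑ r : Fin a × Fin q, (if (e'.symm (r.1, r.2.succ)).1 = p then 1 else 0) = q := by
    omega
  rw [Finset.prod_ite, Finset.prod_const_one, mul_one, Finset.prod_const]
  congr 1
  rw [Finset.card_filter]
  exact h6

open Classical in
/-- The signed term of a distribution `t`. -/
noncomputable def term (C : Cfg a k N) (φ : MultilinearMap ℂ (fun _ : Fin a => A) ℂ)
    (BD : Fin k → Fin a → A) (W : Fin a → A) (t : Fin k → Equiv.Perm (Fin a)) : ℂ :=
  if h : ∀ l, Function.Bijective (C.eta t l) then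
    (∏ l, ((Equiv.Perm.sign (Equiv.ofBijective _ (h l)) : ℤ) : ℂ)) *
      φ (fun i => (∏ κ, BD κ ((t κ).symm i)) * W i) else 0

open Classical in
/-- The term of one placement. -/
lemma term_eq {φ : MultilinearMap ℂ (fun _ : Fin a => A) ℂ} (hφ : IsSgn N φ)
    (BD : Fin k → Fin a → A) (Z : Fin a × Fin (q + 1) → A) (W : Fin a → A)
    (ε : Equiv.Perm (Fin k)) (e' : Equiv.Perm (Fin a × Fin (q + 1))) (π : Equiv.Perm (Fin a))
    (hπ : ∀ i, (e'.symm (i, 0)).1 = π i)
    (hZ : ∀ p, ∏ r, (if (e'.symm r).1 = p then Z r else 1) = W (π.symm p))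
    (t : Fin k → Equiv.Perm (Fin a)) :
    (if h : ∀ l, Function.Bijective (fun i => slot (Equiv.sumCongr ε e')
        (fun j => (π * t (ε j))⁻¹) (C.pos q l i)) then
      (∏ l, ((Equiv.Perm.sign (Equiv.ofBijective _ (h l)) : ℤ) : ℂ)) *
        φ (fun p => (∏ κ, ∏ n, (if slot (Equiv.sumCongr ε e')
        (fun j => (π * t (ε j))⁻¹) (.inl κ, n) = p then BD κ n else 1)) *
          ∏ r, (if (e'.symm r).1 = p then Z r else 1)) else 0) = C.term φ BD W t := by
  have hinl : ∀ κ n, slot (Equiv.sumCongr ε e') (fun j => (π * t (ε j))⁻¹)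
      ((.inl κ, n) : (Fin k ⊕ (Fin a × Fin (q + 1))) × Fin a) = π (t κ n) := by
    intro κ n
    rw [slot_sum_inl, Equiv.apply_symm_apply]
    rfl
  have hslot : ∀ l i, slot (Equiv.sumCongr ε e') (fun j => (π * t (ε j))⁻¹) (C.pos q l i) =
      π (C.eta t l i) := by
    intro l i
    rcases h : C.om l i with _ | κ
    · rw [pos_none h, eta_none h, slot_sum_inr, hπ]
    · rw [pos_some h, eta_some h, hinl]
  have hfun : ∀ l, (fun i => slot (Equiv.sumCongr ε e') (fun j => (π * t (ε j))⁻¹)
      (C.pos q l i)) = fun i => π (C.eta t l i) := by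
    intro l
    funext i
    exact hslot l i
  have hbij : (∀ l, Function.Bijective (fun i => slot (Equiv.sumCongr ε e')
        (fun j => (π * t (ε j))⁻¹) (C.pos q l i))) ↔ ∀ l, Function.Bijective (C.eta t l) := by
    apply forall_congr'
    intro l
    rw [hfun l]
    exact Equiv.comp_bijective (C.eta t l) π
  rw [term]
  by_cases h : ∀ l, Function.Bijective (C.eta t l)
  · have h' := hbij.2 h
    rw [dif_pos h', dif_pos h]
    have hsg : ∀ l, Equiv.ofBijective _ (h' l) = π * Equiv.ofBijective _ (h l) := by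
      intro l
      ext i
      show ((slot (Equiv.sumCongr ε e') (fun j => (π * t (ε j))⁻¹) (C.pos q l i) : Fin a) : ℕ) =
        (π (C.eta t l i) : Fin a)
      rw [hslot]
    have h1 : ∏ l, ((Equiv.Perm.sign (Equiv.ofBijective _ (h' l)) : ℤ) : ℂ) =
        ((Equiv.Perm.sign π : ℤ) : ℂ) ^ N *
          ∏ l, ((Equiv.Perm.sign (Equiv.ofBijective _ (h l)) : ℤ) : ℂ) := by
      have h2 : ∀ l : Fin N, ((Equiv.Perm.sign (Equiv.ofBijective _ (h' l)) : ℤ) : ℂ) =
          ((Equiv.Perm.sign π : ℤ) : ℂ) *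
            ((Equiv.Perm.sign (Equiv.ofBijective _ (h l)) : ℤ) : ℂ) := by
        intro l
        rw [hsg l, map_mul, Units.val_mul, Int.cast_mul]
      rw [Finset.prod_congr rfl (fun l _ => h2 l), Finset.prod_mul_distrib, Finset.prod_const,
        Finset.card_univ, Fintype.card_fin]
    have h3 : (fun p => (∏ κ, ∏ n, (if slot (Equiv.sumCongr ε e')
        (fun j => (π * t (ε j))⁻¹) (.inl κ, n) = p then BD κ n else 1)) *
          ∏ r, (if (e'.symm r).1 = p then Z r else 1)) =
        fun p => (fun i => (∏ κ, BD κ ((t κ).symm i)) * W i) (π.symm p) := by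
      funext p
      rw [hZ]
      show _ = (∏ κ, BD κ ((t κ).symm (π.symm p))) * W (π.symm p)
      congr 1
      apply Finset.prod_congr rfl
      intro κ _
      rw [Finset.prod_eq_single ((t κ).symm (π.symm p))]
      · rw [hinl, Equiv.apply_symm_apply, Equiv.apply_symm_apply, if_pos rfl]
      · intro n _ hn
        rw [hinl, if_neg]
        intro hp
        apply hn
        rw [← hp, Equiv.symm_apply_apply, Equiv.symm_apply_apply]
      · intro hn
        exact absurd (Finset.mem_univ _) hn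
    rw [h1, h3, hφ π.symm (fun i => (∏ κ, BD κ ((t κ).symm i)) * W i), Equiv.Perm.sign_symm]
    have h4 : ((Equiv.Perm.sign π : ℤ) : ℂ) ^ N * ((Equiv.Perm.sign π : ℤ) : ℂ) ^ N = 1 := by
      rw [← mul_pow, sign_sq, one_pow]
    calc ((Equiv.Perm.sign π : ℤ) : ℂ) ^ N *
          (∏ l, ((Equiv.Perm.sign (Equiv.ofBijective _ (h l)) : ℤ) : ℂ)) *
          (((Equiv.Perm.sign π : ℤ) : ℂ) ^ N *
            φ (fun i => (∏ κ, BD κ ((t κ).symm i)) * W i))
        = (((Equiv.Perm.sign π : ℤ) : ℂ) ^ N * ((Equiv.Perm.sign π : ℤ) : ℂ) ^ N) *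
          ((∏ l, ((Equiv.Perm.sign (Equiv.ofBijective _ (h l)) : ℤ) : ℂ)) *
            φ (fun i => (∏ κ, BD κ ((t κ).symm i)) * W i)) := by ring
      _ = _ := by rw [h4, one_mul]
  · rw [dif_neg h, dif_neg (fun h' => h (hbij.1 h'))]

end GP

end Cfg

end Vale.Agent.P181.H270
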