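import Vale.Agent.P181.H270.Place

set_option autoImplicit false
set_option linter.unusedSectionVars false

/-!
# The master placement lemma for the hybrid maps `A_(q,k)`, `b = q a + k`

Particles: `k` one-letter columns `inl i` and `a q` blocks `inr (p, j)`.
-/

namespace Vale.Agent.P181.H270

open Vale.Agent.P181 Vale.Agent.P181.H280 Finset

variable {A : Type*} [CommRing A] [Algebra ℂ A]

/-- The relation satisfied by the form of an element of the kernel of the hybrid map. -/
def Rel {a : ℕ} (k q : ℕ) (L : Submodule ℂ A) (F : MultilinearMap ℂ (fun _ : Fin a => A) ℂ) :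
    Prop :=
  ∀ y : Fin k ⊕ (Fin a × Fin q) → Fin a → A, (∀ r s, y r s ∈ L) →
    ∑ e : Equiv.Perm (Fin k ⊕ (Fin a × Fin q)), ∑ σ : Fin k → Equiv.Perm (Fin a),
      F (fun p => (∏ i, y (e (.inl i)) (σ i p)) * ∏ j, ∏ s, y (e (.inr (p, j))) s) = 0

section Gen

variable {a : ℕ}

/-- Iterated contraction as one sum. -/
lemma altC_iter_apply (x : Fin a → A) (n : ℕ) : ∀ (F : MultilinearMap ℂ (fun _ : Fin a => A) ℂ)
    (P : Fin a → A), ((altC x)^[n] F) P =
      ∑ τ : Fin n → Equiv.Perm (Fin a), (∏ c, ((Equiv.Perm.sign (τ c) : ℤ) : ℂ)) *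
        F (fun p => P p * ∏ c, x (τ c p)) := by
  induction n with
  | zero =>
    intro F P
    simp
  | succ n ih =>
    intro F P
    rw [Function.iterate_succ_apply, ih]
    rw [← (Fin.consEquiv (fun _ : Fin (n + 1) => Equiv.Perm (Fin a))).sum_comp,
      Fintype.sum_prod_type, Finset.sum_comm]
    apply Finset.sum_congr rfl
    intro τ _
    rw [altC_apply, Finset.mul_sum]
    apply Finset.sum_congr rfl
    intro σ _
    have h1 : ∏ c, ((Equiv.Perm.sign ((Fin.consEquiv
        (fun _ : Fin (n + 1) => Equiv.Perm (Fin a))) (σ, τ) c) : ℤ) : ℂ) =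
        ((Equiv.Perm.sign σ : ℤ) : ℂ) * ∏ c, ((Equiv.Perm.sign (τ c) : ℤ) : ℂ) := by
      rw [Fin.prod_univ_succ]
      rfl
    rw [h1]
    have h2 : (fun p => P p * ∏ c, x ((Fin.consEquiv
        (fun _ : Fin (n + 1) => Equiv.Perm (Fin a))) (σ, τ) c p)) =
        fun p => x (σ p) * (P p * ∏ c, x (τ c p)) := by
      funext p
      rw [Fin.prod_univ_succ]
      show P p * (x (σ p) * ∏ c, x (τ c p)) = _
      ring
    rw [h2]
    ring

/-- A signed sum over tuples of permutations vanishes when one entry may be swapped. -/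
lemma sign_sum_zero' {n : ℕ} (f : (Fin n → Equiv.Perm (Fin a)) → ℂ) (c : Fin n) (i j : Fin a)
    (hij : i ≠ j) (h : ∀ τ, f (Function.update τ c (τ c * Equiv.swap i j)) = f τ) :
    ∑ τ : Fin n → Equiv.Perm (Fin a), (∏ l, ((Equiv.Perm.sign (τ l) : ℤ) : ℂ)) * f τ = 0 := by
  have hinv : Function.Involutive
      (fun τ : Fin n → Equiv.Perm (Fin a) => Function.update τ c (τ c * Equiv.swap i j)) := by
    intro τ
    funext l
    show Function.update (Function.update τ c (τ c * Equiv.swap i j)) c
      (Function.update τ c (τ c * Equiv.swap i j) c * Equiv.swap i j) l = τ l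
    by_cases hl : l = c
    · rw [hl, Function.update_self, Function.update_self, mul_assoc, Equiv.swap_mul_self, mul_one]
    · rw [Function.update_of_ne hl, Function.update_of_ne hl]
  have h4 : ∑ τ : Fin n → Equiv.Perm (Fin a), (∏ l, ((Equiv.Perm.sign (τ l) : ℤ) : ℂ)) * f τ =
      - ∑ τ : Fin n → Equiv.Perm (Fin a), (∏ l, ((Equiv.Perm.sign (τ l) : ℤ) : ℂ)) * f τ := by
    conv_lhs => rw [← Equiv.sum_comp hinv.toPerm]
    rw [← Finset.sum_neg_distrib]
    apply Finset.sum_congr rfl
    intro τ _
    simp only [Function.Involutive.coe_toPerm]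
    rw [h]
    have h5 : ∏ l, ((Equiv.Perm.sign
        (Function.update τ c (τ c * Equiv.swap i j) l) : ℤ) : ℂ) =
        - ∏ l, ((Equiv.Perm.sign (τ l) : ℤ) : ℂ) := by
      rw [← Finset.mul_prod_erase _ _ (Finset.mem_univ c),
        ← Finset.mul_prod_erase _ (fun l => ((Equiv.Perm.sign (τ l) : ℤ) : ℂ))
          (Finset.mem_univ c)]
      rw [Function.update_self, map_mul, Equiv.Perm.sign_swap hij]
      have h6 : ∏ l ∈ Finset.univ.erase c, ((Equiv.Perm.sign
          (Function.update τ c (τ c * Equiv.swap i j) l) : ℤ) : ℂ) =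
          ∏ l ∈ Finset.univ.erase c, ((Equiv.Perm.sign (τ l) : ℤ) : ℂ) := by
        apply Finset.prod_congr rfl
        intro l hl
        rw [Function.update_of_ne (Finset.ne_of_mem_erase hl)]
      rw [h6]
      simp
    rw [h5]
    ring
  exact self_eq_neg.1 h4

/-- Multiplying the entries into the slots. -/
noncomputable def slotMul {κ : Type*} [Fintype κ] (s : κ → Fin a)
    (F : MultilinearMap ℂ (fun _ : Fin a => A) ℂ) : MultilinearMap ℂ (fun _ : κ => A) ℂ where
  toFun N := F (fun p => ∏ k, if s k = p then N k else 1)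
  map_update_add' := by
    intro _ N k0 u v
    have key : ∀ z : A, (fun p => ∏ k, if s k = p then Function.update N k0 z k else 1) =
        Function.update (fun p => ∏ k, if s k = p then N k else 1) (s k0)
          ((∏ k ∈ Finset.univ.erase k0, if s k = s k0 then N k else 1) * z) := by
      intro z
      funext p
      by_cases hp : p = s k0
      · rw [hp, Function.update_self, ← Finset.mul_prod_erase _ _ (Finset.mem_univ k0),
          if_pos rfl, Function.update_self, mul_comm]
        congr 1
        apply Finset.prod_congr rfl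
        intro k hk
        rw [Function.update_of_ne (Finset.ne_of_mem_erase hk)]
      · rw [Function.update_of_ne hp]
        apply Finset.prod_congr rfl
        intro k _
        by_cases hk : k = k0
        · rw [hk, if_neg (Ne.symm hp), if_neg (Ne.symm hp)]
        · rw [Function.update_of_ne hk]
    rw [key, key, key, mul_add, MultilinearMap.map_update_add]
  map_update_smul' := by
    intro _ N k0 t u
    have key : ∀ z : A, (fun p => ∏ k, if s k = p then Function.update N k0 z k else 1) =
        Function.update (fun p => ∏ k, if s k = p then N k else 1) (s k0)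
          ((∏ k ∈ Finset.univ.erase k0, if s k = s k0 then N k else 1) * z) := by
      intro z
      funext p
      by_cases hp : p = s k0
      · rw [hp, Function.update_self, ← Finset.mul_prod_erase _ _ (Finset.mem_univ k0),
          if_pos rfl, Function.update_self, mul_comm]
        congr 1
        apply Finset.prod_congr rfl
        intro k hk
        rw [Function.update_of_ne (Finset.ne_of_mem_erase hk)]
      · rw [Function.update_of_ne hp]
        apply Finset.prod_congr rfl
        intro k _
        by_cases hk : k = k0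
        · rw [hk, if_neg (Ne.symm hp), if_neg (Ne.symm hp)]
        · rw [Function.update_of_ne hk]
    rw [key, key, mul_smul_comm, MultilinearMap.map_update_smul]

lemma slotMul_apply {κ : Type*} [Fintype κ] (s : κ → Fin a)
    (F : MultilinearMap ℂ (fun _ : Fin a => A) ℂ) (N : κ → A) :
    slotMul s F N = F (fun p => ∏ k, if s k = p then N k else 1) := rfl

/-- The content of the slots. -/
def cont {ι : Type*} [Fintype ι] (s : ι → Fin a) (y : ι → A) : Fin a → A :=
  fun p => ∏ pos, if s pos = p then y pos else 1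

lemma cont_mul {ι : Type*} [Fintype ι] (s : ι → Fin a) (y y' : ι → A) (p : Fin a) :
    cont s (fun pos => y pos * y' pos) p = cont s y p * cont s y' p := by
  rw [cont, cont, cont, ← Finset.prod_mul_distrib]
  apply Finset.prod_congr rfl
  intro pos _
  split_ifs
  · rfl
  · rw [mul_one]

lemma cont_prod {ι κ : Type*} [Fintype ι] [Fintype κ] (s : ι → Fin a)
    (y : κ → ι → A) (p : Fin a) :
    cont s (fun pos => ∏ i, y i pos) p = ∏ i, cont s (y i) p := by
  simp only [cont]
  rw [Finset.prod_comm]
  apply Finset.prod_congr rfl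
  intro pos _
  split_ifs
  · rfl
  · rw [Finset.prod_const_one]

lemma cont_single {ι : Type*} [Fintype ι] [DecidableEq ι] (s : ι → Fin a)
    (pos0 : ι) (z : A) (p : Fin a) :
    cont s (fun pos => if pos = pos0 then z else 1) p = if s pos0 = p then z else 1 := by
  rw [cont, Finset.prod_eq_single pos0]
  · rw [if_pos rfl]
  · intro pos _ hpos
    rw [if_neg hpos]
    split_ifs <;> rfl
  · intro h
    exact absurd (Finset.mem_univ _) h

end Gen

section Slots

variable {a k q : ℕ}

/-- The slot of a position (particle, letter) under the placement `(e, σ)`. -/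
def slot (e : Equiv.Perm (Fin k ⊕ (Fin a × Fin q))) (σ : Fin k → Equiv.Perm (Fin a)) :
    (Fin k ⊕ (Fin a × Fin q)) × Fin a → Fin a := fun pos =>
  Sum.elim (fun i => (σ i).symm pos.2) (fun pj => pj.1) (e.symm pos.1)

lemma slot_e_inl (e : Equiv.Perm (Fin k ⊕ (Fin a × Fin q))) (σ : Fin k → Equiv.Perm (Fin a))
    (i : Fin k) (s : Fin a) : slot e σ (e (.inl i), s) = (σ i).symm s := by
  simp only [slot, Equiv.symm_apply_apply, Sum.elim_inl]

lemma slot_e_inr (e : Equiv.Perm (Fin k ⊕ (Fin a × Fin q))) (σ : Fin k → Equiv.Perm (Fin a))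
    (pj : Fin a × Fin q) (s : Fin a) : slot e σ (e (.inr pj), s) = pj.1 := by
  simp only [slot, Equiv.symm_apply_apply, Sum.elim_inr]

/-- The argument of the form. -/
lemma cont_slot (e : Equiv.Perm (Fin k ⊕ (Fin a × Fin q))) (σ : Fin k → Equiv.Perm (Fin a))
    (y : Fin k ⊕ (Fin a × Fin q) → Fin a → A) (p : Fin a) :
    cont (slot e σ) (fun pos => y pos.1 pos.2) p =
      (∏ i, y (e (.inl i)) (σ i p)) * ∏ j, ∏ s, y (e (.inr (p, j))) s := by
  rw [cont, Fintype.prod_prod_type, ← Equiv.prod_comp e, Fintype.prod_sum_type]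
  congr 1
  · apply Finset.prod_congr rfl
    intro i _
    rw [Finset.prod_eq_single (σ i p)]
    · rw [slot_e_inl, Equiv.symm_apply_apply, if_pos rfl]
    · intro s _ hs
      rw [slot_e_inl, if_neg]
      intro h
      apply hs
      rw [← h, Equiv.apply_symm_apply]
    · intro h
      exact absurd (Finset.mem_univ _) h
  · rw [Fintype.prod_prod_type, Finset.prod_eq_single p]
    · apply Finset.prod_congr rfl
      intro j _
      apply Finset.prod_congr rfl
      intro s _
      rw [slot_e_inr, if_pos rfl]
    · intro p' _ hp'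
      apply Finset.prod_eq_one
      intro j _
      apply Finset.prod_eq_one
      intro s _
      rw [slot_e_inr, if_neg hp']
    · intro h
      exact absurd (Finset.mem_univ _) h

open Classical in
/-- **The master placement lemma.** -/
theorem master {N : ℕ} (L : Submodule ℂ A) (F : MultilinearMap ℂ (fun _ : Fin a => A) ℂ)
    (hF : Rel k q L F) (x : Fin a → A) (hx : ∀ i, x i ∈ L)
    (P : Fin N → Fin a → (Fin k ⊕ (Fin a × Fin q)) × Fin a)
    (hP : ∀ c i c' i', P c i = P c' i' → c = c' ∧ i = i')
    (B : (Fin k ⊕ (Fin a × Fin q)) × Fin a → A) (hB1 : ∀ c i, B (P c i) = 1)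
    (hB : ∀ pos, (∀ c i, pos ≠ P c i) → B pos ∈ L) :
    ∑ e : Equiv.Perm (Fin k ⊕ (Fin a × Fin q)), ∑ σ : Fin k → Equiv.Perm (Fin a),
      (if h : ∀ c, Function.Bijective (fun i => slot e σ (P c i)) then
        (∏ c, ((Equiv.Perm.sign (Equiv.ofBijective _ (h c)) : ℤ) : ℂ)) *
          ((altC x)^[N] F) (cont (slot e σ) B) else 0) = 0 := by
  let Y : (Fin N → Equiv.Perm (Fin a)) → (Fin k ⊕ (Fin a × Fin q)) × Fin a → A := fun τ pos =>
    B pos * ∏ c, ∏ i, (if pos = P c i then x (τ c i) else 1)
  have hYP : ∀ τ c i, Y τ (P c i) = x (τ c i) := by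
    intro τ c i
    simp only [Y]
    rw [hB1, one_mul, Finset.prod_eq_single c]
    · rw [Finset.prod_eq_single i]
      · rw [if_pos rfl]
      · intro i' _ hi'
        rw [if_neg]
        intro h
        exact hi' (hP _ _ _ _ h).2.symm
      · intro h
        exact absurd (Finset.mem_univ _) h
    · intro c' _ hc'
      apply Finset.prod_eq_one
      intro i' _
      rw [if_neg]
      intro h
      exact hc' (hP _ _ _ _ h).1.symm
    · intro h
      exact absurd (Finset.mem_univ _) h
  have hYB : ∀ τ pos, (∀ c i, pos ≠ P c i) → Y τ pos = B pos := by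
    intro τ pos hpos
    simp only [Y]
    rw [Finset.prod_eq_one, mul_one]
    intro c _
    apply Finset.prod_eq_one
    intro i _
    rw [if_neg (hpos c i)]
  have hYL : ∀ τ pos, Y τ pos ∈ L := by
    intro τ pos
    by_cases h : ∃ c i, pos = P c i
    · obtain ⟨c, i, rfl⟩ := h
      rw [hYP]
      exact hx _
    · push Not at h
      rw [hYB τ pos h]
      exact hB pos h
  have hcont : ∀ (s : (Fin k ⊕ (Fin a × Fin q)) × Fin a → Fin a) τ p, cont s (Y τ) p =
      cont s B p * ∏ c, ∏ i, (if s (P c i) = p then x (τ c i) else 1) := by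
    intro s τ p
    simp only [Y]
    rw [cont_mul, cont_prod]
    congr 1
    apply Finset.prod_congr rfl
    intro c _
    rw [cont_prod]
    apply Finset.prod_congr rfl
    intro i _
    rw [cont_single]
  -- the signed sum for one placement
  let S : Equiv.Perm (Fin k ⊕ (Fin a × Fin q)) → (Fin k → Equiv.Perm (Fin a)) → ℂ := fun e σ =>
    ∑ τ : Fin N → Equiv.Perm (Fin a), (∏ c, ((Equiv.Perm.sign (τ c) : ℤ) : ℂ)) *
      F (cont (slot e σ) (Y τ))
  have hS : ∑ e, ∑ σ, S e σ = 0 := by
    have h1 : ∑ e, ∑ σ, S e σ = ∑ τ : Fin N → Equiv.Perm (Fin a),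
        (∏ c, ((Equiv.Perm.sign (τ c) : ℤ) : ℂ)) * ∑ e, ∑ σ, F (cont (slot e σ) (Y τ)) := by
      simp only [S]
      simp only [Finset.mul_sum]
      rw [Finset.sum_congr rfl (fun e _ => Finset.sum_comm)]
      rw [Finset.sum_comm]
    rw [h1]
    apply Finset.sum_eq_zero
    intro τ _
    rw [mul_eq_zero]
    right
    rw [← hF (fun r s => Y τ (r, s)) (fun r s => hYL τ _)]
    apply Finset.sum_congr rfl
    intro e _
    apply Finset.sum_congr rfl
    intro σ _
    congr 1
    funext p
    rw [← cont_slot e σ (fun r s => Y τ (r, s)) p]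
  refine Eq.trans ?_ hS
  apply Finset.sum_congr rfl
  intro e _
  apply Finset.sum_congr rfl
  intro σ _
  set s := slot e σ with hs
  by_cases h : ∀ c, Function.Bijective (fun i => s (P c i))
  · rw [dif_pos h]
    simp only [S]
    rw [altC_iter_apply, Finset.mul_sum]
    let ρ : Fin N → Equiv.Perm (Fin a) := fun c => Equiv.ofBijective _ (h c)
    rw [← Equiv.sum_comp (Equiv.piCongrRight (fun c : Fin N => Equiv.mulRight (ρ c)))
      (fun τ => (∏ c, ((Equiv.Perm.sign (τ c) : ℤ) : ℂ)) * F (cont s (Y τ)))]
    apply Finset.sum_congr rfl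
    intro τ _
    have h1 : ∏ c, ((Equiv.Perm.sign ((Equiv.piCongrRight
        (fun c : Fin N => Equiv.mulRight (ρ c))) τ c) : ℤ) : ℂ) =
        (∏ c, ((Equiv.Perm.sign (ρ c) : ℤ) : ℂ)) * ∏ c, ((Equiv.Perm.sign (τ c) : ℤ) : ℂ) := by
      rw [← Finset.prod_mul_distrib]
      apply Finset.prod_congr rfl
      intro c _
      rw [Equiv.piCongrRight_apply, Pi.map_apply, Equiv.coe_mulRight, map_mul, Units.val_mul,
        Int.cast_mul, mul_comm]
    rw [h1, mul_assoc]
    congr 3
    funext p
    rw [hcont]
    congr 1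
    apply Finset.prod_congr rfl
    intro c _
    rw [prod_single_perm (fun i => s (P c i)) (ρ c) (fun i => rfl)
      (fun i => x (((Equiv.piCongrRight (fun c : Fin N => Equiv.mulRight (ρ c))) τ c) i)) p]
    rw [Equiv.piCongrRight_apply, Pi.map_apply, Equiv.coe_mulRight, Equiv.Perm.coe_mul,
      Function.comp_apply, Equiv.apply_symm_apply]
  · rw [dif_neg h]
    push Not at h
    obtain ⟨c, hc⟩ := h
    rw [← Finite.injective_iff_bijective, Function.not_injective_iff] at hc
    obtain ⟨i, j, hij, hne⟩ := hc
    symm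
    apply sign_sum_zero' (fun τ => F (cont s (Y τ))) c i j hne
    intro τ
    show F _ = F _
    congr 1
    funext p
    rw [hcont, hcont]
    congr 1
    apply Finset.prod_congr rfl
    intro c' _
    by_cases hc' : c' = c
    · rw [hc', Function.update_self, ← Equiv.prod_comp (Equiv.swap i j)
        (fun l => if s (P c l) = p then x (τ c l) else 1)]
      apply Finset.prod_congr rfl
      intro l _
      have h3 : s (P c (Equiv.swap i j l)) = s (P c l) := by
        by_cases hl : l = i
        · rw [hl, Equiv.swap_apply_left]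
          exact hij.symm
        · by_cases hl' : l = j
          · rw [hl', Equiv.swap_apply_right]
            exact hij
          · rw [Equiv.swap_apply_of_ne_of_ne hl hl']
      rw [h3]
      rfl
    · rw [Function.update_of_ne hc']

end Slots

end Vale.Agent.P181.H270
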