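import Vale.Agent.P181.H270.Place4
import Vale.Agent.P181.H270.Exch4

set_option autoImplicit false
set_option linter.unusedSectionVars false

/-!
# The symmetric contraction and the reduction to the power relation (`b = (q + 1) a + 1`)
-/

namespace Vale.Agent.P181.H270

open Vale.Agent.P181 Vale.Agent.P181.H280 Vale.Agent.P181.H73 Finset

variable {A : Type*} [CommRing A] [Algebra ℂ A]

section Perm

variable {a : ℕ}

/-- The form `P ↦ ∑_π sign(π)^e F(P_(π i) Q_i)`. -/
noncomputable def thQ (e : ℕ) (Q : Fin a → A) (F : MultilinearMap ℂ (fun _ : Fin a => A) ℂ) :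
    MultilinearMap ℂ (fun _ : Fin a => A) ℂ :=
  ∑ π : Equiv.Perm (Fin a), (((Equiv.Perm.sign π : ℤ) : ℂ) ^ e) •
    (mulArg F Q).domDomCongr π

lemma thQ_apply (e : ℕ) (Q : Fin a → A) (F : MultilinearMap ℂ (fun _ : Fin a => A) ℂ)
    (P : Fin a → A) : thQ e Q F P =
      ∑ π : Equiv.Perm (Fin a), (((Equiv.Perm.sign π : ℤ) : ℂ) ^ e) *
        F (fun i => P (π i) * Q i) := by
  simp only [thQ, _root_.sum_apply, smul_apply, smul_eq_mul]
  apply Finset.sum_congr rfl
  intro π _
  congr 1
  show F (fun i => Q i * P (π i)) = _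
  congr 1
  funext i
  ring

lemma altC_thQ (x : Fin a → A) (e : ℕ) (Q : Fin a → A)
    (F : MultilinearMap ℂ (fun _ : Fin a => A) ℂ) :
    altC x (thQ e Q F) = thQ (e + 1) Q (altC x F) := by
  ext P
  rw [altC_apply, thQ_apply]
  simp only [thQ_apply, altC_apply, Finset.mul_sum]
  rw [Finset.sum_comm]
  apply Finset.sum_congr rfl
  intro π _
  rw [← Equiv.sum_comp (Equiv.mulRight π⁻¹)]
  apply Finset.sum_congr rfl
  intro τ _
  simp only [Equiv.coe_mulRight]
  rw [map_mul, Equiv.Perm.sign_inv, Units.val_mul, Int.cast_mul, pow_succ]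
  have h1 : (fun i => x ((τ * π⁻¹) (π i)) * P (π i) * Q i) =
      fun i => x (τ i) * (P (π i) * Q i) := by
    funext i
    have h2 : (τ * π⁻¹) (π i) = τ i := congrArg τ (π.symm_apply_apply i)
    rw [h2]
    ring
  rw [h1]
  ring

lemma altC_iter_thQ (x : Fin a → A) (n : ℕ) : ∀ (e : ℕ) (Q : Fin a → A)
    (F : MultilinearMap ℂ (fun _ : Fin a => A) ℂ),
    (altC x)^[n] (thQ e Q F) = thQ (e + n) Q ((altC x)^[n] F) := by
  induction n with
  | zero => intro e Q F; rfl
  | succ n ih =>
    intro e Q F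
    rw [Function.iterate_succ_apply, Function.iterate_succ_apply, altC_thQ, ih]
    congr 1
    omega

/-- The form `Q ↦ ∑_σ F(P_(σ i) Q_i)`. -/
noncomputable def permC (P : Fin a → A) (F : MultilinearMap ℂ (fun _ : Fin a => A) ℂ) :
    MultilinearMap ℂ (fun _ : Fin a => A) ℂ :=
  ∑ σ : Equiv.Perm (Fin a), mulArg F (fun i => P (σ i))

lemma permC_apply (P : Fin a → A) (F : MultilinearMap ℂ (fun _ : Fin a => A) ℂ)
    (Q : Fin a → A) : permC P F Q = ∑ σ : Equiv.Perm (Fin a), F (fun i => P (σ i) * Q i) := by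
  simp only [permC, _root_.sum_apply, mulArg_apply]

lemma thQ_zero (P Q : Fin a → A) (F : MultilinearMap ℂ (fun _ : Fin a => A) ℂ) :
    thQ 0 Q F P = permC P F Q := by
  rw [thQ_apply, permC_apply]
  simp only [pow_zero, one_mul]

lemma altC_permC (x P : Fin a → A) (F : MultilinearMap ℂ (fun _ : Fin a => A) ℂ) :
    altC x (permC P F) = permC P (altC x F) := by
  ext Q
  rw [altC_apply, permC_apply]
  simp only [permC_apply, altC_apply, Finset.mul_sum]
  rw [Finset.sum_comm]
  apply Finset.sum_congr rfl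
  intro σ _
  apply Finset.sum_congr rfl
  intro τ _
  congr 2
  funext i
  ring

lemma altC_iter_permC (x P : Fin a → A) (n : ℕ) :
    ∀ F : MultilinearMap ℂ (fun _ : Fin a => A) ℂ,
      (altC x)^[n] (permC P F) = permC P ((altC x)^[n] F) := by
  induction n with
  | zero => intro F; rfl
  | succ n ih =>
    intro F
    rw [Function.iterate_succ_apply, Function.iterate_succ_apply, altC_permC, ih]

lemma permC_symm (P : Fin a → A) {F : MultilinearMap ℂ (fun _ : Fin a => A) ℂ}
    (hF : IsSymm F) : IsSymm (permC P F) := by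
  intro ρ Q
  rw [permC_apply, permC_apply, ← Equiv.sum_comp (Equiv.mulRight ρ)]
  apply Finset.sum_congr rfl
  intro σ _
  simp only [Equiv.coe_mulRight]
  rw [← hF ρ (fun i => P (σ i) * Q i)]
  rfl

/-- Contractions of a form vanishing in degree `d + 1` vanish in degree `d`. -/
lemma altC_zero (L : Submodule ℂ A) {d : ℕ} (F : MultilinearMap ℂ (fun _ : Fin a => A) ℂ)
    (x : Fin a → A) (hx : ∀ i, x i ∈ L) (h : ∀ P : Fin a → A, (∀ i, P i ∈ L ^ (d + 1)) → F P = 0)
    (P : Fin a → A) (hP : ∀ i, P i ∈ L ^ d) : altC x F P = 0 := by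
  rw [altC_apply]
  apply Finset.sum_eq_zero
  intro σ _
  rw [h, mul_zero]
  intro i
  rw [pow_succ']
  exact Submodule.mul_mem_mul (hx _) (hP i)

lemma altC_iter_zero (L : Submodule ℂ A) (x : Fin a → A) (hx : ∀ i, x i ∈ L) (n : ℕ) :
    ∀ (d : ℕ) (F : MultilinearMap ℂ (fun _ : Fin a => A) ℂ),
      (∀ P : Fin a → A, (∀ i, P i ∈ L ^ (d + n)) → F P = 0) →
      ∀ P : Fin a → A, (∀ i, P i ∈ L ^ d) → ((altC x)^[n] F) P = 0 := by
  induction n with
  | zero => intro d F h P hP; exact h P hP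
  | succ n ih =>
    intro d F h P hP
    rw [Function.iterate_succ_apply']
    apply altC_zero L ((altC x)^[n] F) x hx _ P hP
    apply ih (d + 1) F
    intro P' hP'
    apply h
    intro i
    have h1 : d + (n + 1) = d + 1 + n := by omega
    rw [h1]
    exact hP' i

lemma isSgn_iter {F : MultilinearMap ℂ (fun _ : Fin a => A) ℂ} (hF : IsSymm F) (x : Fin a → A)
    (j : ℕ) : IsSgn j ((altC x)^[j] F) := by
  induction j with
  | zero => exact IsSymm.isSgn hF
  | succ j ih =>
    rw [Function.iterate_succ_apply']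
    exact ih.altC x

lemma isSymm_of_even {F : MultilinearMap ℂ (fun _ : Fin a => A) ℂ} {j : ℕ} (hj : Even j)
    (hF : IsSgn j F) : IsSymm F := by
  intro σ P
  rw [hF σ P]
  obtain ⟨l, rfl⟩ := hj
  rw [← two_mul, pow_mul, pow_two, sign_sq, one_pow, one_mul]

/-- A symmetric form vanishing on the diagonal vanishes. -/
lemma symm_polar (L : Submodule ℂ A) {F : MultilinearMap ℂ (fun _ : Fin a => A) ℂ}
    (hF : IsSymm F) (h : ∀ G ∈ L, F (fun _ => G) = 0) (Q : Fin a → A) (hQ : ∀ i, Q i ∈ L) :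
    F Q = 0 := by
  have h1 := polar F L h Q hQ
  rw [Finset.sum_congr rfl (fun π _ => hF π Q), Finset.sum_const, nsmul_eq_mul] at h1
  refine (mul_eq_zero.1 h1).resolve_left (Nat.cast_ne_zero.2 ?_)
  rw [Finset.card_univ]
  exact Fintype.card_ne_zero

end Perm

/-- The number of columns used by the power relation with `q` blocks. -/
def B0 (q : ℕ) : ℕ := if q = 1 then 0 else 2 * q - 3

/-- **Reduction to the power relation**: `∑_π φ_(4+B)(P_(π i) Q_i) = 0` for all
`P = (u^(a-3), u v, rest)`. -/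
theorem colQ {c q : ℕ} (hq : 1 ≤ q) (L : Submodule ℂ A)
    (F : MultilinearMap ℂ (fun _ : Fin (c + 4) => A) ℂ) (hs : IsSymm F)
    (hF : Rel 1 (q + 1) L F) (x : Fin (c + 4) → A) (hx : ∀ i, x i ∈ L) (B : ℕ)
    (hB : B0 q ≤ B) (hB2 : B ≤ q * (c + 4)) (Q : Fin (c + 4) → A)
    (hQ : ∀ i, Q i ∈ L ^ (q * (c + 4) - B)) : Col L c (thQ 0 Q ((altC x)^[4 + B] F)) := by
  intro p p' hpp u hu v hv P hP
  set φ := (altC x)^[4] F with hφ
  have hsgn : IsSgn 4 φ := isSgn_iter hs x 4
  have hsym : IsSymm φ := isSymm_of_even ⟨2, rfl⟩ hsgn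
  set P' := Function.update (Function.update P p (u ^ (c + 1))) p' (u * v) with hP'
  -- the relation for powers
  have hG : ∀ G ∈ L ^ (c + 4), permC P' φ (fun _ => G ^ q) = 0 := by
    intro G hG
    rw [permC_apply]
    apply Finset.sum_eq_zero
    intro σ _
    rw [hsym σ (fun i => P' i * G ^ q)]
    have h1 : Col L c (mulArg φ (fun _ => G ^ q)) := by
      apply col4 L (κ := 4)
      · intro τ R
        rw [mulArg_apply, mulArg_apply, ← hsgn τ (fun i => G ^ q * R i)]
      · intro w hw v' hv1 hv2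
        rw [mulArg_apply, ← place4 L F hs hF x hx w hw v' hv1 hv2 G hG]
        congr 1
        funext i
        rw [mul_comm]
    have h2 := h1 p p' hpp u hu v hv P hP
    rw [mulArg_apply] at h2
    rw [← h2]
    congr 1
    funext i
    rw [mul_comm]
  have hps : IsSymm (permC P' φ) := permC_symm P' hsym
  -- the contraction with `B0 q` columns
  have h0 : ∀ R : Fin (c + 4) → A, (∀ i, R i ∈ L ^ (q * (c + 4) - B0 q)) →
      ((altC x)^[B0 q] (permC P' φ)) R = 0 := by
    intro R hR
    by_cases hq1 : q = 1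
    · subst hq1
      have h1 : B0 1 = 0 := if_pos rfl
      rw [h1] at hR ⊢
      apply symm_polar (L ^ (c + 4)) hps
      · intro G hG'
        have h2 := hG G hG'
        simpa only [pow_one] using h2
      · intro i
        have h2 := hR i
        rwa [one_mul, Nat.sub_zero] at h2
    · obtain ⟨r, rfl⟩ : ∃ r, q = r + 2 := ⟨q - 2, by omega⟩
      have h1 : B0 (r + 2) = 2 * r + 1 := by
        rw [B0, if_neg hq1]
        omega
      rw [h1] at hR ⊢
      exact tall L (by omega) x hx r (permC P' φ) hps hG R hR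
  rw [thQ_zero]
  obtain ⟨d, rfl⟩ : ∃ d, B = B0 q + d := ⟨B - B0 q, by omega⟩
  have h1 : (altC x)^[4 + (B0 q + d)] F = (altC x)^[d] ((altC x)^[B0 q] φ) := by
    rw [hφ, ← Function.iterate_add_apply, ← Function.iterate_add_apply]
    congr 1
    omega
  rw [h1, ← altC_iter_permC, ← altC_iter_permC]
  apply altC_iter_zero L x hx d (q * (c + 4) - (B0 q + d)) _ _ Q hQ
  intro R hR
  apply h0 R
  intro i
  have h2 : q * (c + 4) - (B0 q + d) + d = q * (c + 4) - B0 q := by omega
  rw [← h2]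
  exact hR i

end Vale.Agent.P181.H270
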