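import Vale.Agent.P181.H280.Core

set_option autoImplicit false
set_option linter.unusedSectionVars false

/-!
# The three-column placement identity (helper907's (1) => (Q))

`F` is an `a`-linear form (`a = c + 3`) with
`∑_k ∑_σ F (p ↦ y_k (σ p) * ∏ s, y_(k.succAbove p) s) = 0` for all arrays of linear forms
(`a + 1` products of `a` linear forms, one of them dissolved).  Then the three-fold alternating
contraction of `F` vanishes on `(v_0, w v_1, …, w v_(a-1))` with `deg v_0 = c + 1`, `deg v_p = c`.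
-/

namespace Vale.Agent.P181.H270

open Vale.Agent.P181 Vale.Agent.P181.H280 Finset

variable {A : Type*} [CommRing A] [Algebra ℂ A]

/-- A signed sum of a function invariant under a transposition vanishes. -/
lemma sign_sum_zero {m : ℕ} (f : Equiv.Perm (Fin m) → ℂ) (q r : Fin m) (hqr : q ≠ r)
    (h : ∀ τ, f (τ * Equiv.swap q r) = f τ) :
    ∑ τ : Equiv.Perm (Fin m), ((Equiv.Perm.sign τ : ℤ) : ℂ) * f τ = 0 := by
  have h4 : ∑ τ : Equiv.Perm (Fin m), ((Equiv.Perm.sign τ : ℤ) : ℂ) * f τ =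
      - ∑ τ : Equiv.Perm (Fin m), ((Equiv.Perm.sign τ : ℤ) : ℂ) * f τ := by
    conv_lhs => rw [← Equiv.sum_comp (Equiv.mulRight (Equiv.swap q r))]
    rw [← Finset.sum_neg_distrib]
    apply Finset.sum_congr rfl
    intro τ _
    simp only [Equiv.coe_mulRight]
    rw [h, map_mul, Equiv.Perm.sign_swap hqr]
    simp
  exact self_eq_neg.1 h4

/-- Vanishing of a multilinear map on spans. -/
lemma mzero_of_span {κ : Type*} [Fintype κ] {M N : Type*} [AddCommGroup M] [Module ℂ M]
    [AddCommGroup N] [Module ℂ N] (Φ : MultilinearMap ℂ (fun _ : κ => M) N) (S : κ → Set M)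
    (h : ∀ w : κ → M, (∀ i, w i ∈ S i) → Φ w = 0) (w : κ → M)
    (hw : ∀ i, w i ∈ Submodule.span ℂ (S i)) : Φ w = 0 := by
  classical
  have h1 : ∀ i, ∃ l : S i →₀ ℂ, Finsupp.linearCombination ℂ (Subtype.val : S i → M) l = w i := by
    intro i
    rw [← Finsupp.mem_span_iff_linearCombination]
    exact hw i
  choose l hl using h1
  have h2 : w = fun i => ∑ r ∈ (l i).support, (l i r) • (r : M) := by
    funext i
    rw [← hl i, Finsupp.linearCombination_apply, Finsupp.sum]
  rw [h2, MultilinearMap.map_sum_finset]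
  apply Finset.sum_eq_zero
  intro r _
  rw [MultilinearMap.map_smul_univ, h _ (fun i => (r i).2), smul_zero]

/-- Powers of a submodule are spanned by products. -/
lemma pow_eq_span (L : Submodule ℂ A) (m : ℕ) :
    L ^ m ≤ Submodule.span ℂ {z : A | ∃ u : Fin m → A, (∀ s, u s ∈ L) ∧ z = ∏ s, u s} := by
  induction m with
  | zero =>
    rw [pow_zero, Submodule.one_eq_span, Submodule.span_le]
    intro z hz
    apply Submodule.subset_span
    refine ⟨fun s => s.elim0, fun s => s.elim0, ?_⟩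
    simpa using hz
  | succ m ih =>
    rw [pow_succ', Submodule.mul_le]
    intro x hx y hy
    have h1 := ih hy
    refine Submodule.span_induction ?_ ?_ ?_ ?_ h1
    · rintro _ ⟨u, hu, rfl⟩
      apply Submodule.subset_span
      refine ⟨Fin.cons x u, ?_, ?_⟩
      · intro s
        refine Fin.cases ?_ (fun s => ?_) s
        · exact hx
        · exact hu s
      · rw [Fin.prod_cons]
    · rw [mul_zero]
      exact Submodule.zero_mem _
    · intro y z _ _ hy hz
      rw [mul_add]
      exact Submodule.add_mem _ hy hz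
    · intro t y _ hy
      rw [mul_smul_comm]
      exact Submodule.smul_mem _ t hy

section Array

variable {c : ℕ}

/-- The array of linear forms: particle `0` is `γ_0 w^(a-1)`, particle `p + 1` is
`α_p β_p γ_p ∏ u_p` (with `ζ` instead of `γ_0` for `p = 0`). -/
def arr (w ζ : A) (u : Fin (c + 3) → Fin c → A) (α β γ : Fin (c + 3) → A) :
    Fin (c + 4) → Fin (c + 3) → A :=
  Fin.cons (Fin.cons (γ 0) (fun _ => w))
    (fun p => Fin.cons (α p) (Fin.cons (β p) (Fin.cons (if p = 0 then ζ else γ p) (u p))))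

variable (w ζ : A) (u : Fin (c + 3) → Fin c → A) (α β γ : Fin (c + 3) → A)

lemma arr_zero_zero : arr w ζ u α β γ 0 0 = γ 0 := rfl

lemma arr_zero_succ (s : Fin (c + 2)) : arr w ζ u α β γ 0 s.succ = w := rfl

lemma arr_zero_ne (s : Fin (c + 3)) (hs : s ≠ 0) : arr w ζ u α β γ 0 s = w := by
  obtain ⟨s', rfl⟩ := Fin.exists_succ_eq.2 hs
  rfl

lemma arr_succ_zero (p : Fin (c + 3)) : arr w ζ u α β γ p.succ 0 = α p := rfl

lemma arr_succ_one (p : Fin (c + 3)) : arr w ζ u α β γ p.succ 1 = β p := rfl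

lemma arr_mem (L : Submodule ℂ A) (hw : w ∈ L) (hζ : ζ ∈ L) (hu : ∀ p s, u p s ∈ L)
    (hα : ∀ p, α p ∈ L) (hβ : ∀ p, β p ∈ L) (hγ : ∀ p, γ p ∈ L) (k : Fin (c + 4))
    (s : Fin (c + 3)) : arr w ζ u α β γ k s ∈ L := by
  refine Fin.cases ?_ (fun p => ?_) k
  · refine Fin.cases ?_ (fun s => ?_) s
    · exact hγ 0
    · exact hw
  · refine Fin.cases ?_ (fun s => ?_) s
    · exact hα p
    · refine Fin.cases ?_ (fun s => ?_) s
      · exact hβ p
      · refine Fin.cases ?_ (fun s => ?_) s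
        · show (if p = 0 then ζ else γ p) ∈ L
          split_ifs
          · exact hζ
          · exact hγ p
        · exact hu p s

lemma prod_arr_succ (p : Fin (c + 3)) : ∏ s, arr w ζ u α β γ p.succ s =
    α p * (β p * ((if p = 0 then ζ else γ p) * ∏ s, u p s)) := by
  show ∏ s, (Fin.cons (α p) (Fin.cons (β p) (Fin.cons (if p = 0 then ζ else γ p) (u p))) :
    Fin (c + 3) → A) s = _
  rw [Fin.prod_cons, Fin.prod_cons, Fin.prod_cons]

lemma prod_arr_zero : ∏ s, arr w ζ u α β γ 0 s = γ 0 * w ^ (c + 2) := by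
  show ∏ s, (Fin.cons (γ 0) (fun _ => w) : Fin (c + 3) → A) s = _
  rw [Fin.prod_cons, Finset.prod_const, Finset.card_univ, Fintype.card_fin]

/-- The argument of `F` when particle `k` is dissolved along `σ`. -/
def arg (σ : Equiv.Perm (Fin (c + 3))) (k : Fin (c + 4)) (p : Fin (c + 3)) : A :=
  arr w ζ u α β γ k (σ p) * ∏ s, arr w ζ u α β γ (k.succAbove p) s

/-- Dissolving a particle `q + 1`, its first letter goes to a particle `r + 1`: the argument is
invariant under the swap of the letters `α_q`, `α_r`. -/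
lemma arg_swap_α (σ : Equiv.Perm (Fin (c + 3))) (q : Fin (c + 3)) (h : σ 0 ≠ 0) :
    ∃ r, q ≠ r ∧ ∀ α β γ : Fin (c + 3) → A,
      arg w ζ u (fun i => α (Equiv.swap q r i)) β γ σ q.succ = arg w ζ u α β γ σ q.succ := by
  set p1 := σ.symm 0 with hp1
  have hσp1 : σ p1 = 0 := by rw [hp1, Equiv.apply_symm_apply]
  have hp1ne : p1 ≠ 0 := by
    intro h0
    rw [h0] at hσp1
    exact h hσp1
  have hsa : q.succ.succAbove p1 ≠ 0 := by
    exact Fin.succAbove_ne_zero (Fin.succ_ne_zero q) hp1ne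
  obtain ⟨r, hr⟩ := Fin.exists_succ_eq.2 hsa
  have hqr : q ≠ r := by
    rintro rfl
    exact Fin.succAbove_ne q.succ p1 hr.symm
  refine ⟨r, hqr, fun α β γ => ?_⟩
  funext p
  by_cases hp : p = p1
  · subst hp
    rw [arg, arg, hσp1, arr_succ_zero, arr_succ_zero, ← hr, prod_arr_succ, prod_arr_succ,
      Equiv.swap_apply_left, Equiv.swap_apply_right]
    ring
  · have h1 : σ p ≠ 0 := by
      intro h0
      exact hp (σ.injective (h0.trans hσp1.symm))
    obtain ⟨s, hs⟩ := Fin.exists_succ_eq.2 h1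
    have h2 : ∀ α' : Fin (c + 3) → A, arr w ζ u α' β γ q.succ (σ p) =
        arr w ζ u α β γ q.succ (σ p) := by
      intro α'
      rw [← hs]
      rfl
    rw [arg, arg, h2]
    congr 1
    by_cases h3 : q.succ.succAbove p = 0
    · rw [h3, prod_arr_zero, prod_arr_zero]
    · obtain ⟨t, ht⟩ := Fin.exists_succ_eq.2 h3
      have hqt : t ≠ q := by
        rintro rfl
        exact Fin.succAbove_ne t.succ p ht.symm
      have hrt : t ≠ r := by
        rintro rfl
        rw [hr] at ht
        exact hp (Fin.succAbove_right_injective ht.symm)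
      rw [← ht, prod_arr_succ, prod_arr_succ, Equiv.swap_apply_of_ne_of_ne hqt hrt]

/-- The same for the second letter. -/
lemma arg_swap_β (σ : Equiv.Perm (Fin (c + 3))) (q : Fin (c + 3)) (h : σ 0 ≠ 1) :
    ∃ r, q ≠ r ∧ ∀ α β γ : Fin (c + 3) → A,
      arg w ζ u α (fun i => β (Equiv.swap q r i)) γ σ q.succ = arg w ζ u α β γ σ q.succ := by
  set p1 := σ.symm 1 with hp1
  have hσp1 : σ p1 = 1 := by rw [hp1, Equiv.apply_symm_apply]
  have hp1ne : p1 ≠ 0 := by
    intro h0
    rw [h0] at hσp1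
    exact h hσp1
  have hsa : q.succ.succAbove p1 ≠ 0 := by
    exact Fin.succAbove_ne_zero (Fin.succ_ne_zero q) hp1ne
  obtain ⟨r, hr⟩ := Fin.exists_succ_eq.2 hsa
  have hqr : q ≠ r := by
    rintro rfl
    exact Fin.succAbove_ne q.succ p1 hr.symm
  refine ⟨r, hqr, fun α β γ => ?_⟩
  funext p
  by_cases hp : p = p1
  · subst hp
    rw [arg, arg, hσp1, arr_succ_one, arr_succ_one, ← hr, prod_arr_succ, prod_arr_succ,
      Equiv.swap_apply_left, Equiv.swap_apply_right]
    ring
  · have h1 : σ p ≠ 1 := by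
      intro h0
      exact hp (σ.injective (h0.trans hσp1.symm))
    have h2 : ∀ β' : Fin (c + 3) → A, arr w ζ u α β' γ q.succ (σ p) =
        arr w ζ u α β γ q.succ (σ p) := by
      intro β'
      by_cases h0 : σ p = 0
      · rw [h0]
        rfl
      · obtain ⟨s, hs⟩ := Fin.exists_succ_eq.2 h0
        have hs0 : s ≠ 0 := by
          rintro rfl
          exact h1 hs.symm
        obtain ⟨s', hs'⟩ := Fin.exists_succ_eq.2 hs0
        rw [← hs, ← hs']
        rfl
    rw [arg, arg, h2]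
    congr 1
    by_cases h3 : q.succ.succAbove p = 0
    · rw [h3, prod_arr_zero, prod_arr_zero]
    · obtain ⟨t, ht⟩ := Fin.exists_succ_eq.2 h3
      have hqt : t ≠ q := by
        rintro rfl
        exact Fin.succAbove_ne t.succ p ht.symm
      have hrt : t ≠ r := by
        rintro rfl
        rw [hr] at ht
        exact hp (Fin.succAbove_right_injective ht.symm)
      rw [← ht, prod_arr_succ, prod_arr_succ, Equiv.swap_apply_of_ne_of_ne hqt hrt]

/-- Dissolving particle `0`, its letter `γ_0` goes to a particle `r + 1`, `r ≠ 0`: the argument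
is invariant under the swap of `γ_0`, `γ_r`. -/
lemma arg_swap_γ (σ : Equiv.Perm (Fin (c + 3))) (h : σ 0 ≠ 0) :
    ∃ r, 0 ≠ r ∧ ∀ α β γ : Fin (c + 3) → A,
      arg w ζ u α β (fun i => γ (Equiv.swap 0 r i)) σ 0 = arg w ζ u α β γ σ 0 := by
  set p1 := σ.symm 0 with hp1
  have hσp1 : σ p1 = 0 := by rw [hp1, Equiv.apply_symm_apply]
  have hp1ne : p1 ≠ 0 := by
    intro h0
    rw [h0] at hσp1
    exact h hσp1
  refine ⟨p1, hp1ne.symm, fun α β γ => ?_⟩
  funext p
  rw [arg, arg, Fin.succAbove_zero]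
  by_cases hp : p = p1
  · subst hp
    rw [hσp1, arr_zero_zero, arr_zero_zero, prod_arr_succ, prod_arr_succ,
      if_neg hp1ne, if_neg hp1ne, Equiv.swap_apply_left, Equiv.swap_apply_right]
    ring
  · have h1 : σ p ≠ 0 := by
      intro h0
      exact hp (σ.injective (h0.trans hσp1.symm))
    rw [arr_zero_ne _ _ _ _ _ _ _ h1, arr_zero_ne _ _ _ _ _ _ _ h1, prod_arr_succ, prod_arr_succ]
    by_cases h0 : p = 0
    · subst h0
      rw [if_pos rfl, if_pos rfl]
    · rw [if_neg h0, if_neg h0, Equiv.swap_apply_of_ne_of_ne h0 hp]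

/-- The surviving terms. -/
lemma arg_main (σ : Equiv.Perm (Fin (c + 3))) (h : σ 0 = 0) :
    arg w ζ u α β γ σ 0 = fun p => γ p * (β p * (α p *
      (if p = 0 then ζ * ∏ s, u p s else w * ∏ s, u p s))) := by
  funext p
  rw [arg, Fin.succAbove_zero, prod_arr_succ]
  by_cases h0 : p = 0
  · subst h0
    rw [if_pos rfl, if_pos rfl, h, arr_zero_zero]
    ring
  · have h1 : σ p ≠ 0 := by
      intro h2
      exact h0 (σ.injective (h2.trans h.symm))
    rw [if_neg h0, if_neg h0, arr_zero_ne _ _ _ _ _ _ _ h1]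
    ring

end Array

/-- The identity for products of linear forms. -/
theorem place_prod {c : ℕ} (L : Submodule ℂ A) (F : MultilinearMap ℂ (fun _ : Fin (c + 3) => A) ℂ)
    (x : Fin (c + 3) → A) (hx : ∀ i, x i ∈ L)
    (hF : ∀ y : Fin (c + 4) → Fin (c + 3) → A, (∀ k s, y k s ∈ L) →
      ∑ k, ∑ σ : Equiv.Perm (Fin (c + 3)),
        F (fun p => y k (σ p) * ∏ s, y (k.succAbove p) s) = 0)
    (w ζ : A) (hw : w ∈ L) (hζ : ζ ∈ L) (u : Fin (c + 3) → Fin c → A) (hu : ∀ p s, u p s ∈ L) :
    ((altC x)^[3] F) (fun p => if p = 0 then ζ * ∏ s, u p s else w * ∏ s, u p s) = 0 := by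
  classical
  set V : Fin (c + 3) → A := fun p => if p = 0 then ζ * ∏ s, u p s else w * ∏ s, u p s with hV
  -- expansion of the three contractions
  have hexp : ((altC x)^[3] F) V = ∑ τ1 : Equiv.Perm (Fin (c + 3)),
      ((Equiv.Perm.sign τ1 : ℤ) : ℂ) * ∑ τ2 : Equiv.Perm (Fin (c + 3)),
        ((Equiv.Perm.sign τ2 : ℤ) : ℂ) * ∑ τ3 : Equiv.Perm (Fin (c + 3)),
          ((Equiv.Perm.sign τ3 : ℤ) : ℂ) *
            F (fun p => x (τ3 p) * (x (τ2 p) * (x (τ1 p) * V p))) := by
    show altC x (altC x (altC x F)) V = _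
    rw [altC_apply]
    apply Finset.sum_congr rfl
    intro τ1 _
    rw [altC_apply]
    congr 1
    apply Finset.sum_congr rfl
    intro τ2 _
    rw [altC_apply]
  -- the signed sum for one dissolved particle and one placement
  let S : Fin (c + 4) → Equiv.Perm (Fin (c + 3)) → ℂ := fun k σ =>
    ∑ τ1 : Equiv.Perm (Fin (c + 3)),
      ((Equiv.Perm.sign τ1 : ℤ) : ℂ) * ∑ τ2 : Equiv.Perm (Fin (c + 3)),
        ((Equiv.Perm.sign τ2 : ℤ) : ℂ) * ∑ τ3 : Equiv.Perm (Fin (c + 3)),
          ((Equiv.Perm.sign τ3 : ℤ) : ℂ) *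
            F (arg w ζ u (fun i => x (τ1 i)) (fun i => x (τ2 i)) (fun i => x (τ3 i)) σ k)
  have hS : ∑ k, ∑ σ, S k σ = 0 := by
    have h1 : ∑ k, ∑ σ, S k σ = ∑ τ1 : Equiv.Perm (Fin (c + 3)),
      ((Equiv.Perm.sign τ1 : ℤ) : ℂ) * ∑ τ2 : Equiv.Perm (Fin (c + 3)),
        ((Equiv.Perm.sign τ2 : ℤ) : ℂ) * ∑ τ3 : Equiv.Perm (Fin (c + 3)),
          ((Equiv.Perm.sign τ3 : ℤ) : ℂ) * ∑ k, ∑ σ,
            F (arg w ζ u (fun i => x (τ1 i)) (fun i => x (τ2 i)) (fun i => x (τ3 i)) σ k) := by
      simp only [S]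
      simp only [Finset.mul_sum]
      rw [Finset.sum_congr rfl (fun k _ => Finset.sum_comm)]
      rw [Finset.sum_comm]
      apply Finset.sum_congr rfl
      intro τ1 _
      rw [Finset.sum_congr rfl (fun k _ => Finset.sum_comm)]
      rw [Finset.sum_comm]
      apply Finset.sum_congr rfl
      intro τ2 _
      rw [Finset.sum_congr rfl (fun k _ => Finset.sum_comm)]
      rw [Finset.sum_comm]
    rw [h1]
    apply Finset.sum_eq_zero
    intro τ1 _
    rw [mul_eq_zero]
    right
    apply Finset.sum_eq_zero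
    intro τ2 _
    rw [mul_eq_zero]
    right
    apply Finset.sum_eq_zero
    intro τ3 _
    rw [mul_eq_zero]
    right
    exact hF (arr w ζ u (fun i => x (τ1 i)) (fun i => x (τ2 i)) (fun i => x (τ3 i)))
      (arr_mem w ζ u _ _ _ L hw hζ hu (fun i => hx _) (fun i => hx _) (fun i => hx _))
  -- dissolving a particle with letters in the columns 1, 2
  have hsucc : ∀ q σ, S (Fin.succ q) σ = 0 := by
    intro q σ
    by_cases h : σ 0 = 0
    · -- the second letter does not go to particle `0`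
      have h' : σ 0 ≠ 1 := by
        rw [h]
        exact Fin.zero_ne_one
      obtain ⟨r, hqr, hr⟩ := arg_swap_β w ζ u σ q h'
      simp only [S]
      apply Finset.sum_eq_zero
      intro τ1 _
      rw [mul_eq_zero]
      right
      refine sign_sum_zero (fun τ2 => ∑ τ3 : Equiv.Perm (Fin (c + 3)),
          ((Equiv.Perm.sign τ3 : ℤ) : ℂ) * F (arg w ζ u (fun i => x (τ1 i)) (fun i => x (τ2 i))
            (fun i => x (τ3 i)) σ (Fin.succ q))) q r hqr ?_
      intro τ2
      apply Finset.sum_congr rfl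
      intro τ3 _
      congr 2
      exact hr (fun i => x (τ1 i)) (fun i => x (τ2 i)) (fun i => x (τ3 i))
    · obtain ⟨r, hqr, hr⟩ := arg_swap_α w ζ u σ q h
      refine sign_sum_zero (fun τ1 => ∑ τ2 : Equiv.Perm (Fin (c + 3)),
        ((Equiv.Perm.sign τ2 : ℤ) : ℂ) * ∑ τ3 : Equiv.Perm (Fin (c + 3)),
          ((Equiv.Perm.sign τ3 : ℤ) : ℂ) * F (arg w ζ u (fun i => x (τ1 i)) (fun i => x (τ2 i))
            (fun i => x (τ3 i)) σ (Fin.succ q))) q r hqr ?_
      intro τ1
      apply Finset.sum_congr rfl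
      intro τ2 _
      congr 1
      apply Finset.sum_congr rfl
      intro τ3 _
      congr 2
      exact hr (fun i => x (τ1 i)) (fun i => x (τ2 i)) (fun i => x (τ3 i))
  -- dissolving particle `0`
  have hzero : ∀ σ : Equiv.Perm (Fin (c + 3)), σ 0 ≠ 0 → S 0 σ = 0 := by
    intro σ h
    obtain ⟨r, h0r, hr⟩ := arg_swap_γ w ζ u σ h
    simp only [S]
    apply Finset.sum_eq_zero
    intro τ1 _
    rw [mul_eq_zero]
    right
    apply Finset.sum_eq_zero
    intro τ2 _
    rw [mul_eq_zero]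
    right
    refine sign_sum_zero (fun τ3 => F (arg w ζ u (fun i => x (τ1 i)) (fun i => x (τ2 i))
            (fun i => x (τ3 i)) σ 0)) 0 r h0r ?_
    intro τ3
    show F _ = F _
    congr 1
    exact hr (fun i => x (τ1 i)) (fun i => x (τ2 i)) (fun i => x (τ3 i))
  have hmain : ∀ σ : Equiv.Perm (Fin (c + 3)), σ 0 = 0 → S 0 σ = ((altC x)^[3] F) V := by
    intro σ h
    rw [hexp]
    simp only [S]
    apply Finset.sum_congr rfl
    intro τ1 _
    congr 1
    apply Finset.sum_congr rfl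
    intro τ2 _
    congr 1
    apply Finset.sum_congr rfl
    intro τ3 _
    rw [arg_main w ζ u _ _ _ σ h]
  rw [Fin.sum_univ_succ, Finset.sum_eq_zero (f := fun q : Fin (c + 3) => ∑ σ, S (Fin.succ q) σ)
    (fun q _ => Finset.sum_eq_zero (fun σ _ => hsucc q σ)), add_zero] at hS
  have h2 : ∑ σ, S 0 σ = ∑ σ : Equiv.Perm (Fin (c + 3)),
      if σ 0 = 0 then ((altC x)^[3] F) V else 0 := by
    apply Finset.sum_congr rfl
    intro σ _
    split_ifs with h
    · exact hmain σ h
    · exact hzero σ h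
  rw [h2, ← Finset.sum_filter, Finset.sum_const, nsmul_eq_mul] at hS
  refine (mul_eq_zero.1 hS).resolve_left ?_
  intro h0
  rw [Nat.cast_eq_zero, Finset.card_eq_zero, Finset.filter_eq_empty_iff] at h0
  exact h0 (Finset.mem_univ 1) rfl

/-- **The three-column placement identity.** -/
theorem place {c : ℕ} (L : Submodule ℂ A) (F : MultilinearMap ℂ (fun _ : Fin (c + 3) => A) ℂ)
    (x : Fin (c + 3) → A) (hx : ∀ i, x i ∈ L)
    (hF : ∀ y : Fin (c + 4) → Fin (c + 3) → A, (∀ k s, y k s ∈ L) →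
      ∑ k, ∑ σ : Equiv.Perm (Fin (c + 3)),
        F (fun p => y k (σ p) * ∏ s, y (k.succAbove p) s) = 0)
    (w : A) (hw : w ∈ L) (v : Fin (c + 3) → A) (hv0 : v 0 ∈ L ^ (c + 1))
    (hv : ∀ p, p ≠ 0 → v p ∈ L ^ c) :
    ((altC x)^[3] F) (fun p => if p = 0 then v 0 else w * v p) = 0 := by
  classical
  set G := (altC x)^[3] F with hG
  have h1 : mulArg G (fun p => if p = 0 then 1 else w) v = 0 := by
    apply mzero_of_span (mulArg G (fun p => if p = 0 then 1 else w))
      (fun p => if p = 0 then {z : A | ∃ u : Fin (c + 1) → A, (∀ s, u s ∈ L) ∧ z = ∏ s, u s}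
        else {z : A | ∃ u : Fin c → A, (∀ s, u s ∈ L) ∧ z = ∏ s, u s})
    · intro z hz
      have h0 := hz 0
      rw [if_pos rfl] at h0
      obtain ⟨u0, hu0, hz0⟩ := h0
      have h2 : ∀ p, ∃ u : Fin c → A, (∀ s, u s ∈ L) ∧
          z p = if p = 0 then u0 0 * ∏ s, u s else ∏ s, u s := by
        intro p
        by_cases hp : p = 0
        · subst hp
          refine ⟨fun s => u0 s.succ, fun s => hu0 _, ?_⟩
          rw [if_pos rfl, hz0, Fin.prod_univ_succ]
        · have h3 := hz p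
          rw [if_neg hp] at h3
          obtain ⟨u, hu, hzp⟩ := h3
          exact ⟨u, hu, by rw [if_neg hp, hzp]⟩
      choose u hu hzu using h2
      rw [mulArg_apply]
      have h3 := place_prod L F x hx hF w (u0 0) hw (hu0 0) u hu
      rw [← hG] at h3
      rw [← h3]
      congr 1
      funext p
      rw [hzu p]
      by_cases hp : p = 0
      · rw [if_pos hp, if_pos hp, if_pos hp, one_mul]
      · rw [if_neg hp, if_neg hp, if_neg hp]
    · intro p
      by_cases hp : p = 0
      · rw [if_pos hp, hp]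
        exact pow_eq_span L (c + 1) hv0
      · rw [if_neg hp]
        exact pow_eq_span L c (hv p hp)
  rw [mulArg_apply] at h1
  rw [← h1]
  congr 1
  funext p
  by_cases hp : p = 0
  · rw [if_pos hp, if_pos hp, one_mul, hp]
  · rw [if_neg hp, if_neg hp]

end Vale.Agent.P181.H270
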