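import Vale.Agent.P181.H270.Master

set_option autoImplicit false
set_option linter.unusedSectionVars false

/-!
# The four-column placement for `b = (q + 1) a + 1`
-/

namespace Vale.Agent.P181.H270

open Vale.Agent.P181 Vale.Agent.P181.H280 Finset

variable {A : Type*} [CommRing A] [Algebra ℂ A]

lemma agree {a : ℕ} {f g : Fin a → Fin a} {i0 : Fin a} (hf : Function.Injective f)
    (hg : Function.Surjective g) (h : ∀ i, i ≠ i0 → f i = g i) : f i0 = g i0 := by
  obtain ⟨j, hj⟩ := hg (f i0)
  by_cases hji : j = i0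
  · rw [← hj, hji]
  · rw [← h j hji] at hj
    exact absurd (hf hj) hji

section P4

variable {c q : ℕ}

/-- The four columns. -/
def P4 (l : Fin 4) (i : Fin (c + 4)) : (Fin 1 ⊕ (Fin (c + 4) × Fin (q + 1))) × Fin (c + 4) :=
  if l = 0 then (.inr (i, 0), 0) else
  if l = 1 then (.inr (i, 0), 1) else
  if l = 2 then (if i = 0 then (.inl 0, 0) else (.inr (i, 0), 2)) else
    (if i = 1 then (.inl 0, 1) else (.inr (i, 0), 3))

lemma P4_0 (i : Fin (c + 4)) : P4 (q := q) 0 i = (.inr (i, 0), 0) := rfl
lemma P4_1 (i : Fin (c + 4)) : P4 (q := q) 1 i = (.inr (i, 0), 1) := rfl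
lemma P4_2 (i : Fin (c + 4)) : P4 (q := q) 2 i =
    if i = 0 then (.inl 0, 0) else (.inr (i, 0), 2) := rfl
lemma P4_3 (i : Fin (c + 4)) : P4 (q := q) 3 i =
    if i = 1 then (.inl 0, 1) else (.inr (i, 0), 3) := rfl

lemma n01 : (0 : Fin (c + 4)) ≠ 1 := by
  intro h
  exact absurd (congrArg Fin.val h) (by simp)

lemma P4_inj (l : Fin 4) (i : Fin (c + 4)) (l' : Fin 4) (i' : Fin (c + 4))
    (h : P4 (q := q) l i = P4 (q := q) l' i') : l = l' ∧ i = i' := by
  have h02 : (0 : Fin (c + 4)) ≠ 2 := by
    intro h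
    have := congrArg Fin.val h
    rw [Fin.val_zero, Fin.val_two] at this
    omega
  have h12 : (1 : Fin (c + 4)) ≠ 2 := by
    intro h
    have := congrArg Fin.val h
    rw [Fin.val_one, Fin.val_two] at this
    omega
  have h3 : ((3 : Fin (c + 4)) : ℕ) = 3 := rfl
  have h03 : (0 : Fin (c + 4)) ≠ 3 := by
    intro h
    have := congrArg Fin.val h
    rw [Fin.val_zero, h3] at this
    omega
  have h13 : (1 : Fin (c + 4)) ≠ 3 := by
    intro h
    have := congrArg Fin.val h
    rw [Fin.val_one, h3] at this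
    omega
  have h23 : (2 : Fin (c + 4)) ≠ 3 := by
    intro h
    have := congrArg Fin.val h
    rw [Fin.val_two, h3] at this
    omega
  have h01 : (0 : Fin (c + 4)) ≠ 1 := n01
  fin_cases l <;> fin_cases l' <;>
    simp only [P4, Fin.zero_eta, Fin.mk_one, Fin.reduceFinMk, Fin.reduceEq, if_true, if_false,
      Fin.isValue] at h ⊢ <;> (try split_ifs at h) <;> simp_all

/-- The base array. -/
def B4 (w : A) (z : Fin (c + 4) → A) (u : Fin (c + 4) → Fin c → A)
    (ν : Fin (c + 4) × Fin q → Fin (c + 4) → A) :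
    (Fin 1 ⊕ (Fin (c + 4) × Fin (q + 1))) × Fin (c + 4) → A := fun pos =>
  match pos.1 with
  | .inl _ => (Fin.cons 1 (Fin.cons 1 (fun _ => w)) : Fin (c + 4) → A) pos.2
  | .inr (i, j) => (Fin.cons (Fin.cons 1 (Fin.cons 1 (Fin.cons (if i = 0 then z i else 1)
      (Fin.cons (if i = 1 then z i else 1) (u i))))) (fun j' => ν (i, j')) :
        Fin (q + 1) → Fin (c + 4) → A) j pos.2

variable (w : A) (z : Fin (c + 4) → A) (u : Fin (c + 4) → Fin c → A)
  (ν : Fin (c + 4) × Fin q → Fin (c + 4) → A)

lemma B4_inl (t : Fin 1) (s : Fin (c + 4)) : B4 w z u ν (.inl t, s) =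
    (Fin.cons 1 (Fin.cons 1 (fun _ => w)) : Fin (c + 4) → A) s := rfl

lemma B4_inr_zero (i s : Fin (c + 4)) : B4 w z u ν (.inr (i, 0), s) =
    (Fin.cons 1 (Fin.cons 1 (Fin.cons (if i = 0 then z i else 1)
      (Fin.cons (if i = 1 then z i else 1) (u i)))) : Fin (c + 4) → A) s := rfl

lemma B4_inr_succ (i s : Fin (c + 4)) (j : Fin q) : B4 w z u ν (.inr (i, j.succ), s) =
    ν (i, j) s := rfl

lemma B4_P (l : Fin 4) (i : Fin (c + 4)) : B4 w z u ν (P4 l i) = 1 := by
  fin_cases l
  · show B4 w z u ν (P4 0 i) = 1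
    rw [P4_0, B4_inr_zero]
    rfl
  · show B4 w z u ν (P4 1 i) = 1
    rw [P4_1, B4_inr_zero]
    rfl
  · show B4 w z u ν (P4 2 i) = 1
    rw [P4_2]
    split_ifs with h
    · rw [B4_inl]
      rfl
    · rw [B4_inr_zero]
      show (if i = 0 then z i else 1) = 1
      rw [if_neg h]
  · show B4 w z u ν (P4 3 i) = 1
    rw [P4_3]
    split_ifs with h
    · rw [B4_inl]
      rfl
    · rw [B4_inr_zero]
      show (if i = 1 then z i else 1) = 1
      rw [if_neg h]

lemma B4_mem (L : Submodule ℂ A) (hw : w ∈ L) (hz : ∀ i, z i ∈ L) (hu : ∀ i s, u i s ∈ L)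
    (hν : ∀ r s, ν r s ∈ L) (pos : (Fin 1 ⊕ (Fin (c + 4) × Fin (q + 1))) × Fin (c + 4))
    (hpos : ∀ l i, pos ≠ P4 l i) : B4 w z u ν pos ∈ L := by
  obtain ⟨r, s⟩ := pos
  rcases r with t | ⟨i, j⟩
  · have ht : t = 0 := Subsingleton.elim _ _
    subst ht
    rw [B4_inl]
    revert hpos
    refine Fin.cases ?_ (fun s => ?_) s
    · intro hpos
      exact absurd (by rw [P4_2, if_pos rfl]) (hpos 2 0)
    · refine Fin.cases ?_ (fun s => ?_) s
      · intro hpos
        exact absurd (by rw [P4_3, if_pos rfl]; rfl) (hpos 3 1)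
      · intro _
        exact hw
  · revert hpos
    refine Fin.cases ?_ (fun j => ?_) j
    · rw [B4_inr_zero]
      refine Fin.cases ?_ (fun s => ?_) s
      · intro hpos
        exact absurd (by rw [P4_0]) (hpos 0 i)
      · refine Fin.cases ?_ (fun s => ?_) s
        · intro hpos
          exact absurd (by rw [P4_1]; rfl) (hpos 1 i)
        · refine Fin.cases ?_ (fun s => ?_) s
          · intro hpos
            show (if i = 0 then z i else 1) ∈ L
            by_cases h : i = 0
            · rw [if_pos h]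
              exact hz i
            · exact absurd (by rw [P4_2, if_neg h]; rfl) (hpos 2 i)
          · refine Fin.cases ?_ (fun s => ?_) s
            · intro hpos
              show (if i = 1 then z i else 1) ∈ L
              by_cases h : i = 1
              · rw [if_pos h]
                exact hz i
              · exact absurd (by rw [P4_3, if_neg h]; rfl) (hpos 3 i)
            · intro _
              exact hu i s
    · intro _
      rw [B4_inr_succ]
      exact hν _ _

end P4

section Surv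

variable {c q : ℕ} {e : Equiv.Perm (Fin 1 ⊕ (Fin (c + 4) × Fin (q + 1)))}
  {σ : Fin 1 → Equiv.Perm (Fin (c + 4))}

/-- A particle which is not dissolved lies in one slot. -/
lemma slot_const {r : Fin 1 ⊕ (Fin (c + 4) × Fin (q + 1))} (hr : r ≠ e (.inl 0))
    (s s' : Fin (c + 4)) : slot e σ (r, s) = slot e σ (r, s') := by
  rcases h : e.symm r with t | pj
  · exfalso
    apply hr
    have ht : t = 0 := Subsingleton.elim _ _
    rw [← ht, ← h, Equiv.apply_symm_apply]
  · have h1 : r = e (.inr pj) := by rw [← h, Equiv.apply_symm_apply]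
    rw [h1, slot_e_inr, slot_e_inr]

/-- In a surviving placement the particle `inl 0` is dissolved. -/
lemma surv_none (h : ∀ l, Function.Bijective (fun i => slot e σ (P4 l i))) :
    e (.inl 0) = .inl 0 := by
  rcases hd : e (.inl 0) with t | ⟨i0, j⟩
  · have ht : t = 0 := Subsingleton.elim _ _
    rw [ht]
  · exfalso
    revert hd
    refine Fin.cases ?_ (fun j => ?_) j
    · intro hd
      have h0 := h 0
      have h1 := h 1
      have h2 : slot e σ (P4 0 i0) = slot e σ (P4 1 i0) :=
        agree (f := fun i => slot e σ (P4 0 i)) (g := fun i => slot e σ (P4 1 i)) (i0 := i0)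
          h0.1 h1.2 (fun i hi => by
            show slot e σ (P4 0 i) = slot e σ (P4 1 i)
            rw [P4_0, P4_1]
            apply slot_const
            rw [hd]
            intro h3
            apply hi
            exact (Prod.mk.inj (Sum.inr.inj h3)).1)
      rw [P4_0, P4_1, ← hd, slot_e_inl, slot_e_inl] at h2
      exact n01 ((σ 0).symm.injective h2)
    · intro hd
      have hg : ∀ i s, slot e σ (.inr (i, 0), s) = slot e σ (.inr (i, 0), 0) := by
        intro i s
        apply slot_const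
        rw [hd]
        intro h3
        have h4 := (Prod.mk.inj (Sum.inr.inj h3)).2
        exact absurd h4 (Ne.symm (Fin.succ_ne_zero _))
      have hl : ∀ s, slot e σ (.inl 0, s) = slot e σ (.inl 0, 0) := by
        intro s
        apply slot_const
        rw [hd]
        exact Sum.inl_ne_inr
      have h0 := h 0
      have h2 : slot e σ (P4 2 0) = slot e σ (P4 0 0) :=
        agree (f := fun i => slot e σ (P4 2 i)) (g := fun i => slot e σ (P4 0 i)) (i0 := 0)
          (h 2).1 h0.2 (fun i hi => by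
            show slot e σ (P4 2 i) = slot e σ (P4 0 i)
            rw [P4_2, if_neg hi, P4_0, hg])
      have h3 : slot e σ (P4 3 1) = slot e σ (P4 0 1) :=
        agree (f := fun i => slot e σ (P4 3 i)) (g := fun i => slot e σ (P4 0 i)) (i0 := 1)
          (h 3).1 h0.2 (fun i hi => by
            show slot e σ (P4 3 i) = slot e σ (P4 0 i)
            rw [P4_3, if_neg hi, P4_0, hg])
      rw [P4_2, if_pos rfl] at h2
      rw [P4_3, if_pos rfl, hl, h2] at h3
      exact n01 (h0.1 h3)

lemma surv_const (h : ∀ l, Function.Bijective (fun i => slot e σ (P4 l i)))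
    (r : Fin (c + 4) × Fin (q + 1)) (s : Fin (c + 4)) :
    slot e σ (.inr r, s) = slot e σ (.inr r, 0) := by
  apply slot_const
  rw [surv_none h]
  exact Sum.inr_ne_inl

lemma surv_two (h : ∀ l, Function.Bijective (fun i => slot e σ (P4 l i))) (i : Fin (c + 4)) :
    slot e σ (P4 2 i) = slot e σ (P4 0 i) := by
  have h1 : ∀ i, i ≠ 0 → slot e σ (P4 2 i) = slot e σ (P4 0 i) := by
    intro i hi
    rw [P4_2, if_neg hi, P4_0, surv_const h]
  by_cases hi : i = 0
  · rw [hi]
    exact agree (f := fun i => slot e σ (P4 2 i)) (g := fun i => slot e σ (P4 0 i)) (i0 := 0)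
      (h 2).1 (h 0).2 h1
  · exact h1 i hi

lemma surv_three (h : ∀ l, Function.Bijective (fun i => slot e σ (P4 l i))) (i : Fin (c + 4)) :
    slot e σ (P4 3 i) = slot e σ (P4 0 i) := by
  have h1 : ∀ i, i ≠ 1 → slot e σ (P4 3 i) = slot e σ (P4 0 i) := by
    intro i hi
    rw [P4_3, if_neg hi, P4_0, surv_const h]
  by_cases hi : i = 1
  · rw [hi]
    exact agree (f := fun i => slot e σ (P4 3 i)) (g := fun i => slot e σ (P4 0 i)) (i0 := 1)
      (h 3).1 (h 0).2 h1
  · exact h1 i hi

lemma surv_one (h : ∀ l, Function.Bijective (fun i => slot e σ (P4 l i))) (i : Fin (c + 4)) :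
    slot e σ (P4 1 i) = slot e σ (P4 0 i) := by
  rw [P4_1, P4_0, surv_const h]

/-- The signs cancel. -/
lemma surv_sign (h : ∀ l, Function.Bijective (fun i => slot e σ (P4 l i))) :
    ∏ l, ((Equiv.Perm.sign (Equiv.ofBijective _ (h l)) : ℤ) : ℂ) = 1 := by
  have h1 : ∀ l, Equiv.ofBijective _ (h l) = Equiv.ofBijective _ (h 0) := by
    intro l
    ext i
    show ((slot e σ (P4 l i) : Fin (c + 4)) : ℕ) = (slot e σ (P4 0 i) : Fin (c + 4))
    congr 1
    fin_cases l
    · rfl
    · exact surv_one h i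
    · exact surv_two h i
    · exact surv_three h i
  rw [Finset.prod_congr rfl (fun l _ => by rw [h1 l]), Finset.prod_const, Finset.card_univ,
    Fintype.card_fin]
  have h2 := sign_sq (Equiv.ofBijective _ (h 0))
  calc ((Equiv.Perm.sign (Equiv.ofBijective _ (h 0)) : ℤ) : ℂ) ^ 4
      = (((Equiv.Perm.sign (Equiv.ofBijective _ (h 0)) : ℤ) : ℂ) *
        ((Equiv.Perm.sign (Equiv.ofBijective _ (h 0)) : ℤ) : ℂ)) ^ 2 := by ring
    _ = 1 := by rw [h2, one_pow]

/-- The two letters of the dissolved particle. -/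
lemma surv_sym0 (h : ∀ l, Function.Bijective (fun i => slot e σ (P4 l i))) :
    (σ 0).symm 0 = slot e σ (P4 0 0) := by
  rw [← surv_two h 0, P4_2, if_pos rfl]
  have h1 := slot_e_inl e σ 0 0
  rw [surv_none h] at h1
  exact h1.symm

lemma surv_sym1 (h : ∀ l, Function.Bijective (fun i => slot e σ (P4 l i))) :
    (σ 0).symm 1 = slot e σ (P4 0 1) := by
  rw [← surv_three h 1, P4_3, if_pos rfl]
  have h1 := slot_e_inl e σ 0 1
  rw [surv_none h] at h1
  exact h1.symm

/-- The permutation of the slots. -/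
noncomputable def pi4 (h : ∀ l, Function.Bijective (fun i => slot e σ (P4 l i))) :
    Equiv.Perm (Fin (c + 4)) := Equiv.ofBijective _ (h 0)

lemma pi4_apply (h : ∀ l, Function.Bijective (fun i => slot e σ (P4 l i))) (i : Fin (c + 4)) :
    pi4 h i = slot e σ (.inr (i, 0), 0) := rfl

lemma surv_w (h : ∀ l, Function.Bijective (fun i => slot e σ (P4 l i))) (w : A)
    (p : Fin (c + 4)) : (if σ 0 p = 0 ∨ σ 0 p = 1 then 1 else w) =
      (if (pi4 h).symm p = 0 ∨ (pi4 h).symm p = 1 then 1 else w) := by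
  have h0 : σ 0 p = 0 ↔ (pi4 h).symm p = 0 := by
    rw [← Equiv.eq_symm_apply, Equiv.symm_apply_eq, surv_sym0 h]
    rfl
  have h1 : σ 0 p = 1 ↔ (pi4 h).symm p = 1 := by
    rw [← Equiv.eq_symm_apply, Equiv.symm_apply_eq, surv_sym1 h]
    rfl
  simp only [h0, h1]

/-- The letters of the particle `i`. -/
def V4 (z : Fin (c + 4) → A) (u : Fin (c + 4) → Fin c → A) (i : Fin (c + 4)) : A :=
  (if i = 0 then z i else 1) * ((if i = 1 then z i else 1) * ∏ s, u i s)

lemma surv_cont (h : ∀ l, Function.Bijective (fun i => slot e σ (P4 l i)))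
    (w : A) (z : Fin (c + 4) → A) (u : Fin (c + 4) → Fin c → A)
    (ν : Fin (c + 4) × Fin q → Fin (c + 4) → A) (p : Fin (c + 4)) :
    cont (slot e σ) (B4 w z u ν) p =
      ((if (pi4 h).symm p = 0 ∨ (pi4 h).symm p = 1 then 1 else w) * V4 z u ((pi4 h).symm p)) *
      ∏ k : Fin (c + 4) × Fin q, (if slot e σ (.inr (k.1, k.2.succ), 0) = p then
        ∏ s, ν k s else 1) := by
  rw [cont, Fintype.prod_prod_type, Fintype.prod_sum_type, Fin.prod_univ_one, mul_assoc]
  congr 1
  · rw [← surv_w h w p, Finset.prod_eq_single (σ 0 p)]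
    · have h1 := slot_e_inl e σ 0 (σ 0 p)
      rw [surv_none h, Equiv.symm_apply_apply] at h1
      rw [if_pos h1, B4_inl]
      generalize σ 0 p = s
      refine Fin.cases ?_ (fun s => ?_) s
      · rw [if_pos (Or.inl rfl)]
        rfl
      · refine Fin.cases ?_ (fun s => ?_) s
        · have h3 : ((Fin.succ 0 : Fin (c + 4)) = 0 ∨ (Fin.succ 0 : Fin (c + 4)) = 1) :=
            Or.inr rfl
          rw [if_pos h3]
          rfl
        · rw [if_neg]
          · rfl
          · rintro (h2 | h2)
            · exact Fin.succ_ne_zero _ h2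
            · have h3 : s.succ = 0 := Fin.succ_injective _ h2
              exact Fin.succ_ne_zero _ h3
    · intro s _ hs
      have h1 := slot_e_inl e σ 0 s
      rw [surv_none h] at h1
      rw [h1, if_neg]
      intro h2
      apply hs
      rw [← h2, Equiv.apply_symm_apply]
    · intro h1
      exact absurd (Finset.mem_univ _) h1
  · have h1 : ∀ x : Fin (c + 4) × Fin (q + 1),
        (∏ s, (if slot e σ (.inr x, s) = p then B4 w z u ν (.inr x, s) else 1)) =
        (if slot e σ (.inr x, 0) = p then ∏ s, B4 w z u ν (.inr x, s) else 1) := by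
      intro x
      split_ifs with hx
      · apply Finset.prod_congr rfl
        intro s _
        rw [surv_const h, if_pos hx]
      · apply Finset.prod_eq_one
        intro s _
        rw [surv_const h, if_neg hx]
    rw [Finset.prod_congr rfl (fun x _ => h1 x), Fintype.prod_prod_type]
    have h2 : ∀ i : Fin (c + 4), (∏ j, (if slot e σ (.inr (i, j), 0) = p then
        ∏ s, B4 w z u ν (.inr (i, j), s) else 1)) =
        (if slot e σ (.inr (i, 0), 0) = p then V4 z u i else 1) *
        ∏ j : Fin q, (if slot e σ (.inr (i, j.succ), 0) = p then ∏ s, ν (i, j) s else 1) := by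
      intro i
      rw [Fin.prod_univ_succ]
      congr 1
      congr 1
      simp only [B4_inr_zero]
      rw [Fin.prod_cons, Fin.prod_cons, Fin.prod_cons, Fin.prod_cons, one_mul, one_mul]
      rfl
    rw [Finset.prod_congr rfl (fun i _ => h2 i), Finset.prod_mul_distrib,
      prod_single_perm (fun i => slot e σ (.inr (i, 0), 0)) (pi4 h) (fun i => rfl) (V4 z u) p,
      Fintype.prod_prod_type (f := fun k : Fin (c + 4) × Fin q =>
        (if slot e σ (.inr (k.1, k.2.succ), 0) = p then ∏ s, ν k s else 1))]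

/-- Every slot contains `q` pure particles. -/
lemma surv_card (h : ∀ l, Function.Bijective (fun i => slot e σ (P4 l i))) (G : A)
    (p : Fin (c + 4)) :
    ∏ k : Fin (c + 4) × Fin q, (if slot e σ (.inr (k.1, k.2.succ), 0) = p then G else 1) =
      G ^ q := by
  have h1 : ∑ r : Fin 1 ⊕ (Fin (c + 4) × Fin (q + 1)), (if slot e σ (r, 0) = p then 1 else 0) =
      ∑ r : Fin 1 ⊕ (Fin (c + 4) × Fin (q + 1)),
        (if slot e σ (e r, 0) = p then 1 else 0) :=
    (Equiv.sum_comp e (fun r => if slot e σ (r, 0) = p then 1 else 0)).symm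
  rw [Fintype.sum_sum_type, Fintype.sum_sum_type, Fin.sum_univ_one, Fin.sum_univ_one,
    surv_none h] at h1
  have h2 := Nat.add_left_cancel h1
  have h3 : ∑ x : Fin (c + 4) × Fin (q + 1), (if slot e σ (e (.inr x), 0) = p then 1 else 0) =
      q + 1 := by
    rw [Fintype.sum_prod_type, Finset.sum_eq_single p]
    · simp only [slot_e_inr, if_true]
      simp
    · intro p' _ hp'
      apply Finset.sum_eq_zero
      intro j _
      rw [slot_e_inr, if_neg hp']
    · intro h4
      exact absurd (Finset.mem_univ _) h4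
  rw [h3, Fintype.sum_prod_type] at h2
  simp only [Fin.sum_univ_succ (n := q)] at h2
  rw [Finset.sum_add_distrib] at h2
  have h4 : ∑ i : Fin (c + 4), (if slot e σ (.inr (i, (0 : Fin (q + 1))), 0) = p then 1 else 0) =
      1 := by
    rw [Finset.sum_eq_single ((pi4 h).symm p)]
    · rw [if_pos]
      have h5 := pi4_apply h ((pi4 h).symm p)
      rw [Equiv.apply_symm_apply] at h5
      exact h5.symm
    · intro i _ hi
      rw [if_neg]
      intro h5
      apply hi
      rw [← pi4_apply h i] at h5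
      rw [← h5, Equiv.symm_apply_apply]
    · intro h5
      exact absurd (Finset.mem_univ _) h5
  rw [h4, ← Fintype.sum_prod_type (f := fun k : Fin (c + 4) × Fin q =>
    (if slot e σ (.inr (k.1, k.2.succ), 0) = p then 1 else 0))] at h2
  have h6 : ∑ k : Fin (c + 4) × Fin q, (if slot e σ (.inr (k.1, k.2.succ), 0) = p then 1 else 0) =
      q := by omega
  rw [Finset.prod_ite, Finset.prod_const_one, mul_one, Finset.prod_const]
  congr 1
  rw [Finset.card_filter]
  exact h6

end Surv

/-- The placement for products of linear forms in the slots, arbitrary pure particle `G`. -/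
theorem place4_prod {c q : ℕ} (L : Submodule ℂ A)
    (F : MultilinearMap ℂ (fun _ : Fin (c + 4) => A) ℂ) (hs : IsSymm F)
    (hF : Rel 1 (q + 1) L F) (x : Fin (c + 4) → A) (hx : ∀ i, x i ∈ L)
    (w : A) (hw : w ∈ L) (z : Fin (c + 4) → A) (hz : ∀ i, z i ∈ L)
    (u : Fin (c + 4) → Fin c → A) (hu : ∀ i s, u i s ∈ L) (G : A) (hG : G ∈ L ^ (c + 4)) :
    ((altC x)^[4] F) (fun i => ((if i = 0 ∨ i = 1 then 1 else w) * V4 z u i) * G ^ q) = 0 := by
  classical
  set φ := (altC x)^[4] F with hφ
  have hsφ : IsSgn 4 φ := by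
    have h1 : ∀ j : ℕ, IsSgn j ((altC x)^[j] F) := by
      intro j
      induction j with
      | zero => exact IsSymm.isSgn hs
      | succ j ih =>
        rw [Function.iterate_succ_apply']
        exact ih.altC x
    exact h1 4
  have hsym : ∀ (π : Equiv.Perm (Fin (c + 4))) (P : Fin (c + 4) → A),
      φ (fun p => P (π p)) = φ P := by
    intro π P
    rw [hsφ π P]
    have h2 := sign_sq π
    calc ((Equiv.Perm.sign π : ℤ) : ℂ) ^ 4 * φ P
        = (((Equiv.Perm.sign π : ℤ) : ℂ) * ((Equiv.Perm.sign π : ℤ) : ℂ)) ^ 2 * φ P := by ring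
      _ = φ P := by rw [h2, one_pow, one_mul]
  let V' : Fin (c + 4) → A := fun i => (if i = 0 ∨ i = 1 then 1 else w) * V4 z u i
  -- the multilinear map of the pure particles
  let M : Equiv.Perm (Fin 1 ⊕ (Fin (c + 4) × Fin (q + 1))) → (Fin 1 → Equiv.Perm (Fin (c + 4))) →
      MultilinearMap ℂ (fun _ : Fin (c + 4) × Fin q => A) ℂ := fun e σ =>
    if h : ∀ l, Function.Bijective (fun i => slot e σ (P4 l i)) then
      slotMul (fun k => slot e σ (.inr (k.1, k.2.succ), 0))
        (mulArg φ (fun p => V' ((pi4 h).symm p))) else 0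
  have hM0 : ∀ Nn : Fin (c + 4) × Fin q → A,
      (∀ k, Nn k ∈ {g : A | ∃ y : Fin (c + 4) → A, (∀ s, y s ∈ L) ∧ g = ∏ s, y s}) →
      (∑ e, ∑ σ, M e σ) Nn = 0 := by
    intro Nn hN
    choose ν hν hNν using hN
    have h1 := master L F hF x hx P4 (fun l i l' i' h => P4_inj l i l' i' h) (B4 w z u ν)
      (fun l i => B4_P w z u ν l i) (fun pos hpos => B4_mem w z u ν L hw hz hu hν pos hpos)
    rw [← h1, _root_.sum_apply]
    apply Finset.sum_congr rfl
    intro e _
    rw [_root_.sum_apply]
    apply Finset.sum_congr rfl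
    intro σ _
    simp only [M]
    by_cases h : ∀ l, Function.Bijective (fun i => slot e σ (P4 l i))
    · rw [dif_pos h, dif_pos h, surv_sign h, one_mul, slotMul_apply, mulArg_apply]
      congr 1
      funext p
      rw [surv_cont h]
      congr 1
      apply Finset.prod_congr rfl
      intro k _
      rw [hNν k]
    · rw [dif_neg h, dif_neg h]
      rfl
  have hM : (∑ e, ∑ σ, M e σ) (fun _ => G) = 0 :=
    mzero_of_span (∑ e, ∑ σ, M e σ) _ hM0 (fun _ => G) (fun k => pow_eq_span L (c + 4) hG)
  have hval : ∀ e σ, M e σ (fun _ => G) =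
      if (∀ l, Function.Bijective (fun i => slot e σ (P4 l i))) then
        φ (fun i => V' i * G ^ q) else 0 := by
    intro e σ
    simp only [M]
    by_cases h : ∀ l, Function.Bijective (fun i => slot e σ (P4 l i))
    · rw [dif_pos h, if_pos h, slotMul_apply, mulArg_apply,
        ← hsym (pi4 h).symm (fun i => V' i * G ^ q)]
      congr 1
      funext p
      rw [surv_card h]
    · rw [dif_neg h, if_neg h]
      rfl
  rw [_root_.sum_apply] at hM
  simp only [_root_.sum_apply, hval] at hM
  rw [← Finset.sum_product', ← Finset.sum_filter, Finset.sum_const, nsmul_eq_mul] at hM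
  refine (mul_eq_zero.1 hM).resolve_left ?_
  intro h0
  rw [Nat.cast_eq_zero, Finset.card_eq_zero, Finset.filter_eq_empty_iff] at h0
  refine h0 (x := (1, fun _ => 1)) (Finset.mem_product.2 ⟨Finset.mem_univ _, Finset.mem_univ _⟩) ?_
  have hid : ∀ l i, slot (1 : Equiv.Perm (Fin 1 ⊕ (Fin (c + 4) × Fin (q + 1)))) (fun _ => 1)
      (P4 l i) = i := by
    intro l i
    fin_cases l
    · rfl
    · rfl
    · show slot (1 : Equiv.Perm (Fin 1 ⊕ (Fin (c + 4) × Fin (q + 1)))) (fun _ => 1) (P4 2 i) = i
      rw [P4_2]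
      split_ifs with hi
      · rw [hi]
        rfl
      · rfl
    · show slot (1 : Equiv.Perm (Fin 1 ⊕ (Fin (c + 4) × Fin (q + 1)))) (fun _ => 1) (P4 3 i) = i
      rw [P4_3]
      split_ifs with hi
      · rw [hi]
        rfl
      · rfl
  intro l
  have h3 : (fun i => slot (1 : Equiv.Perm (Fin 1 ⊕ (Fin (c + 4) × Fin (q + 1)))) (fun _ => 1)
      (P4 l i)) = id := by
    funext i
    exact hid l i
  rw [h3]
  exact Function.bijective_id

/-- **The four-column placement.** -/
theorem place4 {c q : ℕ} (L : Submodule ℂ A)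
    (F : MultilinearMap ℂ (fun _ : Fin (c + 4) => A) ℂ) (hs : IsSymm F)
    (hF : Rel 1 (q + 1) L F) (x : Fin (c + 4) → A) (hx : ∀ i, x i ∈ L)
    (w : A) (hw : w ∈ L) (v : Fin (c + 4) → A)
    (hv1 : ∀ p : Fin (c + 4), (p : ℕ) < 2 → v p ∈ L ^ (c + 1))
    (hv2 : ∀ p : Fin (c + 4), 2 ≤ (p : ℕ) → v p ∈ L ^ c)
    (G : A) (hG : G ∈ L ^ (c + 4)) :
    ((altC x)^[4] F) (fun p => (if (p : ℕ) < 2 then v p else w * v p) * G ^ q) = 0 := by
  classical
  have hlt : ∀ p : Fin (c + 4), (p : ℕ) < 2 ↔ (p = 0 ∨ p = 1) := by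
    intro p
    constructor
    · intro h
      by_cases h0 : (p : ℕ) = 0
      · left
        exact Fin.ext h0
      · right
        apply Fin.ext
        rw [Fin.val_one]
        omega
    · rintro (h | h)
      · rw [h, Fin.val_zero]
        omega
      · rw [h, Fin.val_one]
        omega
  set G' := mulArg ((altC x)^[4] F) (fun p => (if (p : ℕ) < 2 then 1 else w) * G ^ q) with hG'
  have h1 : G' v = 0 := by
    apply mzero_of_span G'
      (fun p => if (p : ℕ) < 2 then {z : A | ∃ u : Fin (c + 1) → A, (∀ s, u s ∈ L) ∧ z = ∏ s, u s}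
        else {z : A | ∃ u : Fin c → A, (∀ s, u s ∈ L) ∧ z = ∏ s, u s})
    · intro y hy
      have h2 : ∀ p : Fin (c + 4), ∃ ζ : A, ∃ u : Fin c → A, ζ ∈ L ∧ (∀ s, u s ∈ L) ∧
          y p = (if (p : ℕ) < 2 then ζ else 1) * ∏ s, u s := by
        intro p
        by_cases hp : (p : ℕ) < 2
        · have h3 := hy p
          rw [if_pos hp] at h3
          obtain ⟨u, hu, hup⟩ := h3
          refine ⟨u 0, fun s => u s.succ, hu 0, fun s => hu _, ?_⟩
          rw [if_pos hp, hup, Fin.prod_univ_succ]
        · have h3 := hy p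
          rw [if_neg hp] at h3
          obtain ⟨u, hu, hup⟩ := h3
          exact ⟨w, u, hw, hu, by rw [if_neg hp, one_mul, hup]⟩
      choose ζ u hζ hu hyu using h2
      rw [hG', mulArg_apply, ← place4_prod L F hs hF x hx w hw ζ hζ u hu G hG]
      congr 1
      funext p
      rw [hyu p]
      simp only [V4]
      by_cases hp : (p : ℕ) < 2
      · rw [if_pos hp, if_pos hp, if_pos ((hlt p).1 hp)]
        rcases (hlt p).1 hp with h | h
        · rw [if_pos h, if_neg (by rw [h]; exact n01)]
          ring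
        · rw [if_pos h, if_neg (by rw [h]; exact n01.symm)]
          ring
      · have h3 : ¬ (p = 0 ∨ p = 1) := fun h => hp ((hlt p).2 h)
        rw [if_neg hp, if_neg hp, if_neg h3, if_neg (fun h => h3 (Or.inl h)),
          if_neg (fun h => h3 (Or.inr h))]
        ring
    · intro p
      by_cases hp : (p : ℕ) < 2
      · rw [if_pos hp]
        exact pow_eq_span L (c + 1) (hv1 p hp)
      · rw [if_neg hp]
        exact pow_eq_span L c (hv2 p (by omega))
  rw [hG', mulArg_apply] at h1
  rw [← h1]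
  congr 1
  funext p
  by_cases hp : (p : ℕ) < 2
  · rw [if_pos hp, if_pos hp]
    ring
  · rw [if_neg hp, if_neg hp]
    ring

end Vale.Agent.P181.H270
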