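import Vale.Agent.P181.H983.TDefs

set_option autoImplicit false

/-!
# Contractions kill the column sums
-/

namespace Vale.Agent.P181.H270

open Vale.Agent.P181 Vale.Agent.P181.H280 Vale.Agent.P181.H73 Vale.Agent.P181.H983 Finset
  MvPolynomial

lemma colPerm_apply {κ : Type} [DecidableEq κ] {M a : ℕ} (ι : Fin M × Fin a ↪ κ)
    (τ : Fin M → Equiv.Perm (Fin a)) (c : Fin M) (i : Fin a) :
    colPerm ι τ (ι (c, i)) = ι (c, τ c i) := by
  rw [colPerm, Equiv.Perm.viaEmbedding_apply]
  rfl

lemma colPerm_notMem {κ : Type} [DecidableEq κ] {M a : ℕ} (ι : Fin M × Fin a ↪ κ)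
    (τ : Fin M → Equiv.Perm (Fin a)) (p : κ) (hp : p ∉ Set.range ι) : colPerm ι τ p = p :=
  Equiv.Perm.viaEmbedding_apply_of_notMem _ _ _ hp

lemma cont_colPerm {A : Type*} [CommRing A] [Algebra ℂ A] {κ : Type} [Fintype κ] [DecidableEq κ]
    {M a : ℕ} (ι : Fin M × Fin a ↪ κ) (s : κ → Fin a) (y : κ → A)
    (τ : Fin M → Equiv.Perm (Fin a)) (p : Fin a) :
    cont s (fun k => y (colPerm ι τ k)) p =
      (∏ k ∈ univ \ univ.map ι, if s k = p then y k else 1) *
        ∏ c, ∏ i, (if s (ι (c, i)) = p then y (ι (c, τ c i)) else 1) := by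
  rw [cont, ← Finset.prod_sdiff (Finset.subset_univ (univ.map ι)), Finset.prod_map,
    Fintype.prod_prod_type]
  congr 1
  · apply Finset.prod_congr rfl
    intro k hk
    rw [colPerm_notMem]
    rintro ⟨x, rfl⟩
    exact (Finset.mem_sdiff.1 hk).2 (Finset.mem_map_of_mem ι (Finset.mem_univ x))
  · apply Finset.prod_congr rfl
    intro c _
    apply Finset.prod_congr rfl
    intro i _
    rw [colPerm_apply]

lemma prod_mem_card {A : Type*} [CommRing A] [Algebra ℂ A] {κ : Type*} (L : Submodule ℂ A)
    (S : Finset κ) (g : κ → A) (h : ∀ k ∈ S, g k ∈ L) : ∏ k ∈ S, g k ∈ L ^ S.card := by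
  classical
  induction S using Finset.induction_on with
  | empty =>
    rw [Finset.prod_empty, Finset.card_empty, pow_zero]
    exact Submodule.one_le.1 le_rfl
  | insert k S hk ih =>
    rw [Finset.prod_insert hk, Finset.card_insert_of_notMem hk, pow_succ']
    exact Submodule.mul_mem_mul (h k (Finset.mem_insert_self k S))
      (ih (fun i hi => h i (Finset.mem_insert_of_mem hi)))

/-- (S4a), for all rings. -/
theorem s4a' {A : Type*} [CommRing A] [Algebra ℂ A] {a M j : ℕ} (L : Submodule ℂ A)
    (x : Fin a → A) (hx : ∀ i, x i ∈ L)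
    (F : MultilinearMap ℂ (fun _ : Fin a => A) ℂ)
    (hF : ∀ P : Fin a → A, (∀ i, P i ∈ L ^ j) → ((altC x)^[M] F) P = 0)
    {κ : Type} [Fintype κ] [DecidableEq κ] (s : κ → Fin a)
    (hs : ∀ p, (univ.filter (fun k => s k = p)).card = j + M)
    (ι : Fin M × Fin a ↪ κ) (w : κ → Fin a) :
    ∑ τ : Fin M → Equiv.Perm (Fin a), (∏ c, ((Equiv.Perm.sign (τ c) : ℤ) : ℂ)) *
      F (cont s (fun k => x (w (colPerm ι τ k)))) = 0 := by
  classical
  have hcp : ∀ (τ : Fin M → Equiv.Perm (Fin a)) (p : Fin a),
      cont s (fun k => x (w (colPerm ι τ k))) p =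
      (∏ k ∈ univ \ univ.map ι, if s k = p then x (w k) else 1) *
        ∏ c, ∏ i, (if s (ι (c, i)) = p then x (w (ι (c, τ c i))) else 1) :=
    fun τ p => cont_colPerm ι s (fun k => x (w k)) τ p
  by_cases hinjs : ∀ c, Function.Injective (fun i => s (ι (c, i)))
  swap
  · push Not at hinjs
    obtain ⟨c, hc⟩ := hinjs
    rw [Function.Injective] at hc
    push Not at hc
    obtain ⟨i, i', hii, hne⟩ := hc
    apply sign_sum_zero' (fun τ => F (cont s (fun k => x (w (colPerm ι τ k))))) c i i' hne
    intro τ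
    show F (cont s (fun k => x (w (colPerm ι _ k)))) = F (cont s (fun k => x (w (colPerm ι τ k))))
    congr 1
    funext p
    rw [hcp, hcp]
    congr 1
    apply Finset.prod_congr rfl
    intro c' _
    by_cases hc' : c' = c
    · rw [hc', Function.update_self, ← Equiv.prod_comp (Equiv.swap i i')]
      apply Finset.prod_congr rfl
      intro i'' _
      rw [Equiv.Perm.mul_apply, Equiv.swap_apply_self]
      have h1 : s (ι (c, Equiv.swap i i' i'')) = s (ι (c, i'')) := by
        rcases eq_or_ne i'' i with h | h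
        · rw [h, Equiv.swap_apply_left]; exact hii.symm
        · rcases eq_or_ne i'' i' with h' | h'
          · rw [h', Equiv.swap_apply_right]; exact hii
          · rw [Equiv.swap_apply_of_ne_of_ne h h']
      rw [h1]
    · rw [Function.update_of_ne hc']
  by_cases hinjw : ∀ c, Function.Injective (fun i => w (ι (c, i)))
  swap
  · push Not at hinjw
    obtain ⟨c, hc⟩ := hinjw
    rw [Function.Injective] at hc
    push Not at hc
    obtain ⟨i, i', hii, hne⟩ := hc
    rw [← Equiv.sum_comp (Equiv.inv (Fin M → Equiv.Perm (Fin a)))]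
    have h0 : ∀ τ : Fin M → Equiv.Perm (Fin a),
        (∏ c, ((Equiv.Perm.sign ((Equiv.inv (Fin M → Equiv.Perm (Fin a))) τ c) : ℤ) : ℂ)) =
        ∏ c, ((Equiv.Perm.sign (τ c) : ℤ) : ℂ) := by
      intro τ
      apply Finset.prod_congr rfl
      intro c _
      show ((Equiv.Perm.sign (τ c)⁻¹ : ℤ) : ℂ) = _
      rw [Equiv.Perm.sign_inv]
    rw [Finset.sum_congr rfl (fun τ _ => by rw [h0 τ])]
    apply sign_sum_zero' (fun τ => F (cont s (fun k => x (w (colPerm ι
      ((Equiv.inv (Fin M → Equiv.Perm (Fin a))) τ) k))))) c i i' hne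
    intro τ
    show F (cont s (fun k => x (w (colPerm ι _ k)))) = F (cont s (fun k => x (w (colPerm ι _ k))))
    congr 1
    funext p
    rw [hcp, hcp]
    congr 1
    apply Finset.prod_congr rfl
    intro c' _
    by_cases hc' : c' = c
    · rw [hc']
      apply Finset.prod_congr rfl
      intro i'' _
      have h2 : (Equiv.inv (Fin M → Equiv.Perm (Fin a)))
          (Function.update τ c (τ c * Equiv.swap i i')) c i'' =
          Equiv.swap i i' ((τ c)⁻¹ i'') := by
        show (Function.update τ c (τ c * Equiv.swap i i') c)⁻¹ i'' = _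
        rw [Function.update_self, mul_inv_rev, Equiv.swap_inv]
        rfl
      have h3 : (Equiv.inv (Fin M → Equiv.Perm (Fin a))) τ c i'' = (τ c)⁻¹ i'' := rfl
      rw [h2, h3]
      have h1 : ∀ z, w (ι (c, Equiv.swap i i' z)) = w (ι (c, z)) := by
        intro z
        rcases eq_or_ne z i with h | h
        · rw [h, Equiv.swap_apply_left]; exact hii.symm
        · rcases eq_or_ne z i' with h' | h'
          · rw [h', Equiv.swap_apply_right]; exact hii
          · rw [Equiv.swap_apply_of_ne_of_ne h h']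
      rw [h1]
    · have h2 : (Equiv.inv (Fin M → Equiv.Perm (Fin a)))
          (Function.update τ c (τ c * Equiv.swap i i')) c' =
          (Equiv.inv (Fin M → Equiv.Perm (Fin a))) τ c' := by
        show (Function.update τ c (τ c * Equiv.swap i i') c')⁻¹ = (τ c')⁻¹
        rw [Function.update_of_ne hc']
      rw [h2]
  -- all columns sorted
  let ρ : Fin M → Equiv.Perm (Fin a) := fun c =>
    Equiv.ofBijective _ (Finite.injective_iff_bijective.1 (hinjs c))
  let π : Fin M → Equiv.Perm (Fin a) := fun c =>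
    Equiv.ofBijective _ (Finite.injective_iff_bijective.1 (hinjw c))
  have hρ : ∀ c i, ρ c i = s (ι (c, i)) := fun c i => rfl
  have hπ : ∀ c i, π c i = w (ι (c, i)) := fun c i => rfl
  let P : Fin a → A := fun p => ∏ k ∈ univ \ univ.map ι, if s k = p then x (w k) else 1
  have hP : ∀ p, P p ∈ L ^ j := by
    intro p
    show (∏ k ∈ univ \ univ.map ι, if s k = p then x (w k) else 1) ∈ L ^ j
    rw [← Finset.prod_filter]
    have h1 : ((univ \ univ.map ι).filter (fun k => s k = p)).card = j := by
      have h2 := hs p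
      rw [Finset.card_filter, ← Finset.sum_sdiff (Finset.subset_univ (univ.map ι)),
        Finset.sum_map, Fintype.sum_prod_type, ← Finset.card_filter] at h2
      have h3 : ∑ c : Fin M, ∑ i : Fin a, (if s (ι (c, i)) = p then 1 else 0) = M := by
        have h4 : ∀ c : Fin M, ∑ i : Fin a, (if s (ι (c, i)) = p then 1 else 0) = 1 := by
          intro c
          rw [Finset.sum_eq_single ((ρ c).symm p)]
          · rw [← hρ, Equiv.apply_symm_apply, if_pos rfl]
          · intro i _ hi
            rw [if_neg]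
            intro h
            apply hi
            rw [← h, ← hρ, Equiv.symm_apply_apply]
          · intro h
            exact absurd (Finset.mem_univ _) h
        rw [Finset.sum_congr rfl (fun c _ => h4 c)]
        simp
      omega
    rw [← h1]
    exact prod_mem_card L _ _ (fun k _ => hx _)
  have hval : ∀ τ : Fin M → Equiv.Perm (Fin a),
      cont s (fun k => x (w (colPerm ι τ k))) =
        fun p => P p * ∏ c, x ((π c * τ c * (ρ c)⁻¹) p) := by
    intro τ
    funext p
    rw [hcp]
    congr 1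
    apply Finset.prod_congr rfl
    intro c _
    rw [Finset.prod_eq_single ((ρ c).symm p)]
    · rw [← hρ, Equiv.apply_symm_apply, if_pos rfl, ← hπ]
      rfl
    · intro i _ hi
      rw [if_neg]
      intro h
      apply hi
      rw [← h, ← hρ, Equiv.symm_apply_apply]
    · intro h
      exact absurd (Finset.mem_univ _) h
  have hmain := hF P hP
  rw [altC_iter_apply] at hmain
  let E : (Fin M → Equiv.Perm (Fin a)) ≃ (Fin M → Equiv.Perm (Fin a)) :=
    Equiv.piCongrRight (fun c => (Equiv.mulLeft (π c)).trans (Equiv.mulRight (ρ c)⁻¹))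
  have hE : ∀ τ c, E τ c = π c * τ c * (ρ c)⁻¹ := fun τ c => rfl
  rw [← E.sum_comp] at hmain
  have h5 : ∀ τ : Fin M → Equiv.Perm (Fin a),
      (∏ c, ((Equiv.Perm.sign (E τ c) : ℤ) : ℂ)) * F (fun p => P p * ∏ c, x (E τ c p)) =
      ((∏ c, ((Equiv.Perm.sign (π c) : ℤ) : ℂ)) * (∏ c, ((Equiv.Perm.sign (ρ c) : ℤ) : ℂ))) *
        ((∏ c, ((Equiv.Perm.sign (τ c) : ℤ) : ℂ)) *
          F (cont s (fun k => x (w (colPerm ι τ k))))) := by
    intro τ
    rw [hval τ]
    have h6 : ∏ c, ((Equiv.Perm.sign (E τ c) : ℤ) : ℂ) =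
        ((∏ c, ((Equiv.Perm.sign (π c) : ℤ) : ℂ)) * (∏ c, ((Equiv.Perm.sign (ρ c) : ℤ) : ℂ))) *
          ∏ c, ((Equiv.Perm.sign (τ c) : ℤ) : ℂ) := by
      rw [← Finset.prod_mul_distrib, ← Finset.prod_mul_distrib]
      apply Finset.prod_congr rfl
      intro c _
      rw [hE, map_mul, map_mul, Equiv.Perm.sign_inv]
      push_cast
      ring
    rw [h6, mul_assoc]
    rfl
  rw [Finset.sum_congr rfl (fun τ _ => h5 τ), ← Finset.mul_sum] at hmain
  refine (mul_eq_zero.1 hmain).resolve_left ?_
  apply mul_ne_zero <;>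
  · apply Finset.prod_ne_zero_iff.2
    intro c _
    exact Int.cast_ne_zero.2 (Units.ne_zero _)

/-- (S4a) contractions kill the column sums. -/
theorem s4a : S4a := by
  intro a M j F _ hF κ _ _ s hs ι w
  exact s4a' (linS a) (fun i => (X i : MvPolynomial (Fin a) ℂ)) (fun i => X_mem_linS i) F hF s hs ι w

end Vale.Agent.P181.H270
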